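import Crest.Agent.X212.Sw.Lv
import Crest.Agent.X212.Prm93.Chg

/-!
# Row 212, GL-S (helper64): the format of the gluing theorem

`Sp` : a symmetric form of a splitting (two faces with heights `g₁`, `g₂`, `g₁ + g₂ = 4 Λ` on the
neck).  `Sp.Geo`, `Sp.Pre`, `Rw.OK` : function level hypotheses.  `Core` : what the analysis gives.
-/

set_option autoImplicit false
set_option linter.unusedSectionVars false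
noncomputable section
open scoped Manifold ContDiff Topology InnerProductSpace
open MeasureTheory Set Function Filter

namespace Crest.Agent.X212.Gls64
open An Cyf70 Prm93 Sw
open M (Mf)

variable {κ lam ν : Type} [Fintype κ] [Fintype lam] [Fintype ν] [DecidableEq ν]
  {d : Dt κ lam ν} {N : Type} [Fintype N] {ty : N → d.𝓔} {X X₁ X₂ : Mf 4}
  {nc nr n₁ r₁ n₂ r₂ m : ℕ}
  {T T₁ T₂ : Type} [NormedAddCommGroup T] [NormedSpace ℝ T] [FiniteDimensional ℝ T]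
  [NormedAddCommGroup T₁] [NormedSpace ℝ T₁] [FiniteDimensional ℝ T₁]
  [NormedAddCommGroup T₂] [NormedSpace ℝ T₂] [FiniteDimensional ℝ T₂]
  {s : Pz X 0 fun i => d.e (ty i)} {s₁ : Pz X₁ 0 fun i => d.e (ty i)}
  {s₂ : Pz X₂ 0 fun i => d.e (ty i)}

/-- agreement over `O` along `φ` -/
def Ag (φ : X₁.M → X.M) (O : Set X₁.M) (c : Cfg X.M κ ν) (c' : Cfg X₁.M κ ν) : Prop :=
  ∀ x ∈ O, (∀ a, c.a a (φ x) = c'.a a x) ∧ c.Φ (φ x) = c'.Φ x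

/-- the field equations and the terms in `J` have the same values -/
def EqF (P : Pc d X nc ty) (P' : Pc d X₁ n₁ ty) (J : Finset d.W) (c : Cfg X.M κ ν)
    (c' : Cfg X₁.M κ ν) (y : X.M) (x : X₁.M) : Prop :=
  P.bg.eD c y - P.p0.D c y = P'.bg.eD c' x - P'.p0.D c' x ∧
    P.bg.eC c y - P.p0.C c y = P'.bg.eC c' x - P'.p0.C c' x ∧ ∀ w ∈ J, P.tm w c y = P'.tm w c' x

/-- the cut functions have the same values -/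
def EqS (P : Pc d X nc ty) (P' : Pc d X₁ n₁ ty) (J : Finset d.W) (e : Fin n₁ → Fin nc)
    (c : Cfg X.M κ ν) (c' : Cfg X₁.M κ ν) : Prop := ∀ j, P.bg.l (e j) c = P'.bg.l j c' ∧
  ∀ w ∈ J, P.bg.lη (e j) (P.η w (e j)) c = P'.bg.lη j (P'.η w j) c'

/-- the height of an end -/
def ht {e : En3 κ lam ν} {b : Bg X.I X.M κ lam ν nc} (K : Nk e b) (o : Bool) (x : X.M) : ℝ :=
  M.pm o * K.τ x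

/-- locality on a face -/
structure Face (σ : Cel s nc nr T) (g : X.M → ℝ) (J : Finset d.W) (a₀ : ℝ) : Prop where
  sm : Sm X.I g
  cb : ∀ a, s.bg.F.Cb (s.bg.F.D a g)
  lft : ∀ a, a₀ ≤ a → ∀ t ∈ σ.Q, ∀ c c', (σ.P t).bg.Adm c → (σ.P t).bg.Adm c' →
    Ag id {x | g x < a + 2} c c' → ∀ x, g x < a → EqF (σ.P t) (σ.P t) J c c' x x
  rgt : ∀ a, a₀ ≤ a → ∀ t ∈ σ.Q, ∀ t' ∈ σ.Q, ∀ c c', (σ.P t).bg.Adm c → (σ.P t').bg.Adm c' →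
    Ag id {x | a - 2 < g x} c c' → ∀ x, a < g x → EqF (σ.P t) (σ.P t') J c c' x x
  cut : ∀ t ∈ σ.Q, ∀ c c', (σ.P t).bg.Adm c → (σ.P t).bg.Adm c' →
    Ag id {x | g x < a₀ + 2} c c' → EqS (σ.P t) (σ.P t) J id c c'
  fr : ∀ t ∈ σ.Q, ∀ x, a₀ - 3 ≤ g x → (∀ a b, σ.S t x a b = s.bg.B.P a b x ∧
    σ.Si t x a b = s.bg.B.P a b x) ∧ ∀ a, (σ.P t).bg.F.dv a x = s.bg.F.dv a x ∧
      (σ.P t).bg.F.e a x = s.bg.F.e a x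
  fμ : ∀ t ∈ σ.Q, (σ.P t).bg.F.μ.restrict {x | a₀ - 3 ≤ g x} = s.bg.F.μ.restrict {x | a₀ - 3 ≤ g x}

/-- the heights correspond below `A` -/
structure Ht (φ : OpenPartialHomeomorph X₁.M X.M) (g' : X₁.M → ℝ) (g : X.M → ℝ) (A : ℝ) : Prop where
  cont : Continuous g
  src : {x | g' x < A} ⊆ φ.source
  tgt : {x | g x < A} ⊆ φ.target
  ht : ∀ x ∈ φ.source, min (g (φ x)) A = min (g' x) A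

/-- the equations correspond below `A` -/
structure Mt (P : Pc d X nc ty) (P' : Pc d X₁ n₁ ty) (φ : OpenPartialHomeomorph X₁.M X.M)
    (g' : X₁.M → ℝ) (A : ℝ) (J : Finset d.W) (e : Fin n₁ → Fin nc) (a₀ : ℝ) : Prop where
  lit : P'.bg.Lit P.bg φ
  eq : ∀ a, a₀ ≤ a → a + 3 ≤ A → ∀ c c', P.bg.Adm c → P'.bg.Adm c' →
    Ag φ {x | g' x < a + 2} c c' → ∀ x, g' x < a → EqF P P' J c c' (φ x) x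
  cut : ∀ c c', P.bg.Adm c → P'.bg.Adm c' → Ag φ {x | g' x < a₀ + 2} c c' → EqS P P' J e c c'

/-- near `x` the functions `f` only depend on the part below `a₀ + 2` -/
def Flat (σ : Cel s nc nr T) (g : X.M → ℝ) (x : σ.Pnt) (f : T → Cfg X.M κ ν → Fin m → ℝ)
    (a₀ η : ℝ) : Prop := ∀ y y' : σ.Pnt, y.1.1 = y'.1.1 → σ.dk 5 y x ≤ η → σ.dk 5 y' x ≤ η →
  Ag id {p | g p < a₀ + 2} y.1.2 y'.1.2 → f y.1.1 y.1.2 = f y'.1.1 y'.1.2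

/-- the gauge row of `y` with respect to `y₀` -/
def gR (σ : Cel s nc nr T) (y₀ y : σ.Pnt) : X.M → ℝ :=
  σ.gro y.1.1 y₀.1.2 (σ.al y.1.1 y.1.2 - σ.al y₀.1.1 y₀.1.2) (y.1.2.Φ - y₀.1.2.Φ)

/-- the gauge fixed linearisation is invertible -/
def IsoAt (σ : Cel s nc nr T) (k : ℕ) (q : d.W →₀ ℝ) (y : σ.Pnt) : Prop :=
  ∀ r : σ.C k →L[ℝ] s.bg.F.H k (triv X.M ℝ),
    (∀ v, s.bg.F.val k _ (r v) = σ.gro y.1.1 y.1.2 (s.bg.F.val _ _ v.1) (s.bg.F.val _ _ v.2.1)) →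
    Bijective ((fderiv ℝ (σ.F k q) (σ.pt k y)).prod r)

/-- the distance over `O` from `(t, c)` to the point `y`, for the word `w` (= `Cel.dO`) -/
def dO (σ : Cel s nc nr T) (O : Set X.M) (t : T) (c : Cfg X.M κ ν) (y : σ.Pnt)
    (w : List (Option κ)) : ENNReal :=
  ∫⁻ x in O, ‖s.bg.F.Dw w (σ.al t c - σ.al y.1.1 y.1.2) x‖ₑ ^ 2 +
    ‖s.bg.F.Dw w (c.Φ - y.1.2.Φ) x‖ₑ ^ 2 ∂s.bg.F.μ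

variable (X X₁ X₂ nc n₁ n₂ T T₁ T₂) in
/-- a splitting, symmetric form -/
structure Sp where
  Δ : Set (ℝ × ℝ)
  Λ : ℝ × ℝ → ℝ
  θ : ℝ × ℝ → T₁ × T₂ →ᴬ[ℝ] T
  φ₁ : ℝ × ℝ → OpenPartialHomeomorph X₁.M X.M
  φ₂ : ℝ × ℝ → OpenPartialHomeomorph X₂.M X.M
  g₁ : X₁.M → ℝ
  g₂ : X₂.M → ℝ
  e : Fin n₁ ⊕ Fin n₂ ≃ Fin nc

variable (X X₁ κ ν nr r₁ r₂ m T T₁) in
/-- further rows `ρ τ`; their relation with the rows of the faces, up to the offset `off` -/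
structure Rw where
  ρ : ℝ → T → Cfg X.M κ ν → Fin m → ℝ
  μ : T₁ → Cfg X₁.M κ ν → Fin r₂ → ℝ
  Lr : ((Fin nr → ℝ) × (Fin m → ℝ)) ≃L[ℝ] ((Fin r₁ → ℝ) × (Fin r₂ → ℝ))
  off : ℝ × ℝ → ℝ → (Fin r₁ → ℝ) × (Fin r₂ → ℝ)
  A : Set ((ℝ × ℝ) × ℝ)

namespace Sp
variable (S : Sp X X₁ X₂ nc n₁ n₂ T T₁ T₂)

/-- long necks -/
def lg : Filter (ℝ × ℝ) := comap S.Λ atTop ⊓ 𝓟 S.Δ

/-- the faces exchanged -/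
def swap : Sp X X₂ X₁ nc n₂ n₁ T T₂ T₁ :=
  ⟨S.Δ, S.Λ, fun δ => (S.θ δ).comp (ContinuousLinearEquiv.prodComm ℝ T₂ T₁).toContinuousLinearMap.toContinuousAffineMap,
    S.φ₂, S.φ₁, S.g₂, S.g₁, (Equiv.sumComm _ _).trans S.e⟩

variable (σ : Cel s nc nr T) (σ₁ : Cel s₁ n₁ r₁ T₁) (σ₂ : Cel s₂ n₂ r₂ T₂)

/-- the geometry -/
structure Geo : Prop where
  ok : σ.OK
  ok₁ : σ₁.OK
  ok₂ : σ₂.OK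
  ht : ∀ᶠ δ in S.lg, ∃ g, Ht (S.φ₁ δ) S.g₁ g (3 * S.Λ δ + 3) ∧
    Ht (S.φ₂ δ) S.g₂ (fun p => 4 * S.Λ δ - g p) (3 * S.Λ δ + 3)
  mt : ∀ J, ∀ᶠ a in atTop, Face σ₁ S.g₁ J a ∧ Face σ₂ S.g₂ J a ∧
    ∀ᶠ δ in S.lg, ∀ t₁ ∈ σ₁.Q, ∀ t₂ ∈ σ₂.Q, S.θ δ (t₁, t₂) ∈ σ.Q ∧
      Mt (σ.P (S.θ δ (t₁, t₂))) (σ₁.P t₁) (S.φ₁ δ) S.g₁ (3 * S.Λ δ + 3) J (fun j => S.e (.inl j)) a ∧
      Mt (σ.P (S.θ δ (t₁, t₂))) (σ₂.P t₂) (S.φ₂ δ) S.g₂ (3 * S.Λ δ + 3) J (fun j => S.e (.inr j)) a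

variable {σ σ₁ σ₂}

/-- `y` agrees with `y₁`, `y₂` below the height `a` -/
def Agr (δ : ℝ × ℝ) (a : ℝ) (y : σ.Pnt) (y₁ : σ₁.Pnt) (y₂ : σ₂.Pnt) : Prop :=
  y.1.1 = S.θ δ (y₁.1.1, y₂.1.1) ∧ Ag (S.φ₁ δ) {p | S.g₁ p < a} y.1.2 y₁.1.2 ∧
    Ag (S.φ₂ δ) {p | S.g₂ p < a} y.1.2 y₂.1.2

/-- pre-glued configurations -/
structure Pre (x : σ₁.Pnt) (z : σ₂.Pnt) (xx : ℝ × ℝ → σ₁.Pnt) (zz : ℝ × ℝ → σ₂.Pnt)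
    (cc : ℝ × ℝ → σ.Pnt) : Prop where
  ag : ∀ᶠ δ in S.lg, (xx δ).1.1 = x.1.1 ∧ (zz δ).1.1 = z.1.1 ∧
    S.Agr δ (3 * S.Λ δ + 3) (cc δ) (xx δ) (zz δ)
  cx : ∀ k, Tendsto (fun δ => σ₁.dk k (xx δ) x) S.lg (𝓝 0)
  cz : ∀ k, Tendsto (fun δ => σ₂.dk k (zz δ) z) S.lg (𝓝 0)

/-- convergence to the pair `(x, z)` up to order `k` -/
structure Nr (k : ℕ) {ι : Type} (l : Filter ι) (δ : ι → ℝ × ℝ) (y : ι → σ.Pnt) (t₁ : ι → T₁)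
    (t₂ : ι → T₂) (x : σ₁.Pnt) (z : σ₂.Pnt) : Prop where
  t : ∀ᶠ i in l, (y i).1.1 = S.θ (δ i) (t₁ i, t₂ i)
  l₁ : Tendsto t₁ l (𝓝 x.1.1)
  l₂ : Tendsto t₂ l (𝓝 z.1.1)
  c₁ : ∀ w : List (Option κ), w.length ≤ k → Tendsto (fun i => dO σ₁
    {p | S.g₁ p ≤ 2 * S.Λ (δ i) + 1} (t₁ i) ((y i).1.2.pb (S.φ₁ (δ i))) x w) l (𝓝 0)
  c₂ : ∀ w : List (Option κ), w.length ≤ k → Tendsto (fun i => dO σ₂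
    {p | S.g₂ p ≤ 2 * S.Λ (δ i) + 1} (t₂ i) ((y i).1.2.pb (S.φ₂ (δ i))) z w) l (𝓝 0)

/-- degeneration -/
def Deg {ι : Type} (l : Filter ι) (y : ι → σ.Pnt) (x : σ₁.Pnt) (z : σ₂.Pnt) : Prop :=
  ∃ (y' : ι → σ.Pnt) (t₁ : ι → T₁) (t₂ : ι → T₂) (δ : ι → ℝ × ℝ),
    (∀ᶠ i in l, σ.Eqv (y i) (y' i) ∧ σ.R (y' i).1.1 (y' i).1.2 = 0) ∧ Tendsto δ l S.lg ∧
    ∀ k, S.Nr k l δ y' t₁ t₂ x z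

variable (σ) in
/-- the linearisation of the equations and the rows `ρ` is onto along `θ δ` -/
def Onto (k : ℕ) (q : d.W →₀ ℝ) (δ : ℝ × ℝ) (ρ : T → Cfg X.M κ ν → Fin m → ℝ) (y : σ.Pnt) : Prop :=
  ∀ (h : σ.Y k) (r : Fin m → ℝ), ∃ v : σ.C k, v.2.2 ∈ range (S.θ δ).contLinear ∧
    fderiv ℝ (σ.F k q) (σ.pt k y) v = h ∧
    ∀ j, fderiv ℝ (σ.rr k fun t c => ρ t c j) (σ.pt k y) v = r j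

/-- the level set of `f` is cut out regularly -/
def _root_.Crest.Agent.X212.Gls64.Trv (σ : Cel s nc nr T) (k : ℕ) (q : d.W →₀ ℝ)
    (f : T → Cfg X.M κ ν → ℝ) (y : σ.Pnt) : Prop :=
  Surjective ((fderiv ℝ (σ.F k q) (σ.pt k y)).prod (fderiv ℝ (σ.rr k f) (σ.pt k y)))

end Sp

namespace Rw
variable (R : Rw κ ν X X₁ nr r₁ r₂ m T T₁) (S : Sp X X₁ X₂ nc n₁ n₂ T T₁ T₂)
  (σ : Cel s nc nr T) {σ₁ : Cel s₁ n₁ r₁ T₁} {σ₂ : Cel s₂ n₂ r₂ T₂} (x : σ₁.Pnt) (z : σ₂.Pnt)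
  (f : T → Cfg X.M κ ν → ℝ)

/-- what the analysis uses; `f` is the wall function -/
structure OK : Prop where
  dim : Module.finrank ℝ T₁ + Module.finrank ℝ T₂ + 1 = Module.finrank ℝ T + m
  fρ : ∀ τ j, σ.Fn fun t c => R.ρ τ t c j
  fμ : ∀ j, σ₁.Fn fun t c => R.μ t c j
  ff : σ.Fn f
  row : ∃ η > 0, (∀ᶠ a in atTop, Flat σ₁ S.g₁ x σ₁.R a η ∧ Flat σ₁ S.g₁ x R.μ a η ∧
      Flat σ₂ S.g₂ z σ₂.R a η) ∧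
    ∀ᶠ δ in S.lg, ∀ τ, (δ, τ) ∈ R.A → ∀ (y : σ.Pnt) y₁ y₂, σ₁.dk 5 y₁ x ≤ η → σ₂.dk 5 y₂ z ≤ η →
      S.Agr δ (2 * S.Λ δ + 2) y y₁ y₂ → R.Lr (σ.R y.1.1 y.1.2, R.ρ τ y.1.1 y.1.2) =
        (σ₁.R y₁.1.1 y₁.1.2, σ₂.R y₂.1.1 y₂.1.2 + R.μ y₁.1.1 y₁.1.2 - R.μ x.1.1 x.1.2) + R.off δ τ
  lev : ∀ᶠ δ in S.lg, ∀ τ, (δ, τ) ∈ R.A → ∀ y : σ.Pnt, ∀ t₁ ∈ σ₁.Q, ∀ t₂ ∈ σ₂.Q,
    y.1.1 = S.θ δ (t₁, t₂) → (R.ρ τ y.1.1 y.1.2 = 0 ↔ f y.1.1 y.1.2 = τ)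
  trv : ∀ k, 7 ≤ k → ∀ᶠ δ in S.lg, ∀ τ, (δ, τ) ∈ R.A → ∀ q (y : σ.Pnt), ∀ t₁ ∈ σ₁.Q, ∀ t₂ ∈ σ₂.Q,
    y.1.1 = S.θ δ (t₁, t₂) → S.Onto σ k q δ (R.ρ τ) y → Trv σ k q f y

/-- admissible sequences -/
structure Sq {ι : Type} (l : Filter ι) (δ : ι → ℝ × ℝ) (τ : ι → ℝ) : Prop where
  lg : Tendsto δ l S.lg
  A : ∀ᶠ i in l, (δ i, τ i) ∈ R.A
  off : Tendsto (fun i => R.off (δ i) (τ i)) l (𝓝 0)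

/-- the choice of the shifts -/
structure Sh : Prop where
  ex : ∃ δ : ℝ → ℝ × ℝ, R.Sq S (𝓝[<] 1) δ id
  dg : ∀ (ι : Type) (l : Filter ι) δ (y : ι → σ.Pnt) (y₁ : ι → σ₁.Pnt) (y₂ : ι → σ₂.Pnt),
    Tendsto δ l S.lg → Tendsto (fun i => σ₁.dk 8 (y₁ i) x) l (𝓝 0) →
    Tendsto (fun i => σ₂.dk 8 (y₂ i) z) l (𝓝 0) → (∀ᶠ i in l, σ.R (y i).1.1 (y i).1.2 = 0 ∧
      S.Agr (δ i) (2 * S.Λ (δ i) + 2) (y i) (y₁ i) (y₂ i)) →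
    R.Sq S l δ fun i => f (y i).1.1 (y i).1.2
  uq : ∀ (ι : Type) (l : Filter ι) δ δ' τ, R.Sq S l δ τ → R.Sq S l δ' τ →
    ∀ k, 5 ≤ k → ∀ (y : ι → σ.Pnt) t₁ t₂, S.Nr k l δ' y t₁ t₂ x z → S.Nr k l δ y t₁ t₂ x z

end Rw

/-- the conclusions of the analysis at level `k` along `(δ, τ, q)`; `c` are the base points -/
structure Core (S : Sp X X₁ X₂ nc n₁ n₂ T T₁ T₂) (R : Rw κ ν X X₁ nr r₁ r₂ m T T₁)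
    {σ : Cel s nc nr T} {σ₁ : Cel s₁ n₁ r₁ T₁} {σ₂ : Cel s₂ n₂ r₂ T₂} (x : σ₁.Pnt) (z : σ₂.Pnt)
    (k : ℕ) {ι : Type} (l : Filter ι) (δ : ι → ℝ × ℝ) (τ : ι → ℝ) (q : ι → d.W →₀ ℝ)
    (c : ι → σ.Pnt) : Prop where
  ex : l.NeBot → ∃ y t₁ t₂, S.Nr (k + 1) l δ y t₁ t₂ x z ∧ ∀ᶠ i in l, σ.Sol (q i) (y i) ∧
    R.ρ (τ i) (y i).1.1 (y i).1.2 = 0 ∧ gR σ (c i) (y i) = 0
  u0 : ∀ y t₁ t₂ y' t₁' t₂', S.Nr (k + 1) l δ y t₁ t₂ x z → S.Nr (k + 1) l δ y' t₁' t₂' x z →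
    ∀ᶠ i in l, σ.Sol (q i) (y i) → R.ρ (τ i) (y i).1.1 (y i).1.2 = 0 → gR σ (c i) (y i) = 0 →
      σ.Sol (q i) (y' i) → R.ρ (τ i) (y' i).1.1 (y' i).1.2 = 0 → gR σ (c i) (y' i) = 0 →
      y i = y' i ∧ t₁ i = t₁' i ∧ t₂ i = t₂' i
  tr : ∀ y t₁ t₂, S.Nr (k + 1) l δ y t₁ t₂ x z → ∀ᶠ i in l, S.Onto σ k (q i) (δ i) (R.ρ (τ i)) (y i)
  u1 : ∀ y t₁ t₂ y' t₁' t₂', S.Nr (k + 1) l δ y t₁ t₂ x z → S.Nr (k + 1) l δ y' t₁' t₂' x z →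
    ∀ᶠ i in l, σ.Sol (q i) (y i) → R.ρ (τ i) (y i).1.1 (y i).1.2 = 0 →
      σ.Sol (q i) (y' i) → R.ρ (τ i) (y' i).1.1 (y' i).1.2 = 0 → σ.Eqv (y i) (y' i)

/-! ### leaves on one cell -/

section one
variable (d ty X nc nr T)

/-- GL-ROW: the gauge row is a smooth family of operators -/
def RowStmt : Prop := ∀ (s : Pz X 0 fun i => d.e (ty i)) (σ : Cel s nc nr T), σ.OK → ∀ k, 7 ≤ k →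
  ∃ Γ : σ.C k → σ.C k →L[ℝ] s.bg.F.H k (triv X.M ℝ), ContDiffOn ℝ ∞ Γ (σ.U k) ∧
    ∀ v₀ ∈ σ.U k, ∀ v, s.bg.F.val k _ (Γ v₀ v) = σ.gro v₀.2.2
      ⟨0, (s.base σ.β).Φ + s.bg.F.val _ _ v₀.2.1⟩ (s.bg.F.val _ _ v.1) (s.bg.F.val _ _ v.2.1)

/-- GL-BOOT: solutions with a smooth gauge row are smooth -/
def BootStmt : Prop := ∀ (s : Pz X 0 fun i => d.e (ty i)) (σ : Cel s nc nr T), σ.OK → ∀ k, 7 ≤ k →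
  ∀ q (y₀ : σ.Pnt), ∀ v ∈ σ.U k, σ.F k q v = 0 →
    σ.gro v.2.2 y₀.1.2 (s.bg.F.val _ _ (v - σ.pt k y₀).1) (s.bg.F.val _ _ (v - σ.pt k y₀).2.1) ∈
      Mod61.Hs s.bg.F.toPre (triv X.M ℝ) → ∃ y, σ.pt k y = v

/-- GL-ISO: regular solutions of index zero -/
def IsoStmt : Prop := ∀ (s : Pz X 0 fun i => d.e (ty i)) (σ : Cel s nc nr T), σ.OK → σ.Ind 0 →
  ∀ k, 7 ≤ k → ∀ q y, σ.Sol q y → σ.Reg k q y → IsoAt σ k q y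

/-- GL-LIFT: higher levels -/
def LiftStmt : Prop := ∀ (s : Pz X 0 fun i => d.e (ty i)) (σ : Cel s nc nr T), σ.OK → σ.Ind 0 →
  ∀ k, 7 ≤ k → ∀ q y, IsoAt σ k q y → ∀ j, k ≤ j → IsoAt σ j q y

/-- GL-FRM: the frames of a family are comparable -/
def FrmStmt : Prop := ∀ (s : Pz X 0 fun i => d.e (ty i)) (𝓕 : Fam s nc T), 𝓕.OK → ∀ t ∈ 𝓕.Q,
  Cmp s.bg.F.toPre (𝓕.P t).bg.F.toPre

/-- GL-FACE: locality on a cell with an end -/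
def FaceStmt : Prop := ∀ (s : Pz X 0 fun i => d.e (ty i)) (σ : Cel s nc nr T), σ.OK → ∀ i b,
  ∀ K ∈ s.nk i, K.Inf b → ∀ J, ∀ᶠ a in atTop, Face σ (ht K b) J a

/-- GL-FLAT: near `x` the levels are constant far out, the moments are local -/
def FlatStmt : Prop := ∀ (s : Pz X 0 fun i => d.e (ty i)) (σ : Cel s nc nr T), σ.OK → ∀ i b,
  ∀ K ∈ s.nk i, K.Inf b → ∀ x : σ.Pnt, ∃ η > 0, ∃ a : ℝ, ∀ y : σ.Pnt, σ.dk 5 y x ≤ η →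
    ∀ t ∈ K.J, a ≤ M.pm b * t → (d.e (ty i)).ψ (En3.lb (K.pb y.1.2) t) =
      (d.e (ty i)).ψ (En3.L (σ.β i b))

variable (X₁ n₁ T₁) in
/-- GL-U: the changes of frame and the divergences correspond -/
def UStmt : Prop := ∀ (s : Pz X 0 fun i => d.e (ty i)) (s₁ : Pz X₁ 0 fun i => d.e (ty i))
  (𝓕 : Fam s nc T) (𝓖 : Fam s₁ n₁ T₁), 𝓕.OK → 𝓖.OK → ∀ t ∈ 𝓕.Q, ∀ t₀ ∈ 𝓕.Q, ∀ u ∈ 𝓖.Q, ∀ u₀ ∈ 𝓖.Q,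
  ∀ φ : OpenPartialHomeomorph X₁.M X.M, (𝓖.P u).bg.Lit (𝓕.P t).bg φ →
    (𝓖.P u₀).bg.Lit (𝓕.P t₀).bg φ → ∀ x ∈ φ.source,
    (∀ a b, ∑ c, 𝓕.S t (φ x) a c * 𝓕.Si t₀ (φ x) c b = ∑ c, 𝓖.S u x a c * 𝓖.Si u₀ x c b) ∧
      ∀ a, (𝓕.P t).bg.F.dv a (φ x) = (𝓖.P u).bg.F.dv a x

end one

section three
variable (d ty X X₁ X₂ nc nr n₁ r₁ n₂ r₂ T T₁ T₂)

/-- GL-CP: cutting a convergent sequence -/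
def CpStmt : Prop := ∀ (s : Pz X 0 fun i => d.e (ty i)) (s₁ : Pz X₁ 0 fun i => d.e (ty i))
  (s₂ : Pz X₂ 0 fun i => d.e (ty i)) (σ : Cel s nc nr T) (σ₁ : Cel s₁ n₁ r₁ T₁)
  (σ₂ : Cel s₂ n₂ r₂ T₂) (S : Sp X X₁ X₂ nc n₁ n₂ T T₁ T₂), S.Geo σ σ₁ σ₂ →
  ∀ (x : σ₁.Pnt) (z : σ₂.Pnt) xx zz (cc : ℝ × ℝ → σ.Pnt), S.Pre x z xx zz cc →
  ∀ k, 5 ≤ k → ∀ (ι : Type) (l : Filter ι) δ (y : ι → σ.Pnt) t₁ t₂, Tendsto δ l S.lg →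
    S.Nr k l δ y t₁ t₂ x z → ∃ (y₁ : ι → σ₁.Pnt) (y₂ : ι → σ₂.Pnt),
      Tendsto (fun i => σ₁.dk k (y₁ i) x) l (𝓝 0) ∧ Tendsto (fun i => σ₂.dk k (y₂ i) z) l (𝓝 0) ∧
      ∀ᶠ i in l, (y₁ i).1.1 = t₁ i ∧ (y₂ i).1.1 = t₂ i ∧
        S.Agr (δ i) (2 * S.Λ (δ i) + 2) (y i) (y₁ i) (y₂ i)

/-- GL-CORE: the analysis -/
def CoreStmt : Prop := ∀ (s : Pz X 0 fun i => d.e (ty i)) (s₁ : Pz X₁ 0 fun i => d.e (ty i))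
  (s₂ : Pz X₂ 0 fun i => d.e (ty i)) (σ : Cel s nc nr T) (σ₁ : Cel s₁ n₁ r₁ T₁)
  (σ₂ : Cel s₂ n₂ r₂ T₂) (S : Sp X X₁ X₂ nc n₁ n₂ T T₁ T₂), S.Geo σ σ₁ σ₂ → σ.Ind 1 →
  ∀ (x : σ₁.Pnt) (z : σ₂.Pnt) xx zz (cc : ℝ × ℝ → σ.Pnt), S.Pre x z xx zz cc →
  ∀ (m : ℕ) (R : Rw κ ν X X₁ nr r₁ r₂ m T T₁) f, R.OK S σ x z f → ∀ k, 7 ≤ k →
  ∀ q₀, σ₁.Sol q₀ x → σ₂.Sol q₀ z → IsoAt σ₁ k q₀ x → IsoAt σ₂ k q₀ z →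
  ∀ (ι : Type) (l : Filter ι) δ τ q, R.Sq S l δ τ → St.Cv l q q₀ →
    Core S R x z k l δ τ q fun i => cc (δ i)

end three

/-! ### leaves on a splitting -/

section spl
variable [Fintype d.𝓔] {Sl : Type} [Fintype Sl]

/-- the symmetric form of a splitting -/
def sp (p : Spl X X₁ X₂ nc n₁ n₂ d Sl T T₁ T₂) (g₁ : X₁.M → ℝ) (g₂ : X₂.M → ℝ) :
    Sp X X₁ X₂ nc n₁ n₂ T T₁ T₂ where
  Δ := p.Δ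
  Λ δ := (δ.2 - δ.1) / 4
  θ δ := p.j.comp (((ContinuousLinearMap.fst ℝ T₁ T₂).toContinuousAffineMap).prod
    (((ContinuousLinearMap.snd ℝ T₁ T₂).toContinuousAffineMap).prod
      (ContinuousAffineMap.const ℝ (T₁ × T₂) (δ.2 - δ.1))))
  φ₁ := p.φL
  φ₂ := p.φR
  g₁ := g₁
  g₂ := g₂
  e := p.c

theorem sp_θ (p : Spl X X₁ X₂ nc n₁ n₂ d Sl T T₁ T₂) (g₁ g₂) (δ : ℝ × ℝ) (t₁ : T₁) (t₂ : T₂) :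
    (sp p g₁ g₂).θ δ (t₁, t₂) = p.par t₁ t₂ δ := rfl

variable (d Sl X X₁ X₂ nc nr n₁ r₁ n₂ r₂ T T₁ T₂)

/-- a property of splittings together with the ends of the two sites -/
def All (A : ∀ (s : StS d Sl X) (s₁ : StS d Sl X₁) (s₂ : StS d Sl X₂) (_ : Cel s nc nr T)
    (_ : Cel s₁ n₁ r₁ T₁) (_ : Cel s₂ n₂ r₂ T₂) (_ : Spl X X₁ X₂ nc n₁ n₂ d Sl T T₁ T₂),
    Sp X X₁ X₂ nc n₁ n₂ T T₁ T₂ → Prop) : Prop :=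
  ∀ (s : StS d Sl X) (s₁ : StS d Sl X₁) (s₂ : StS d Sl X₂) (σ : Cel s nc nr T)
    (σ₁ : Cel s₁ n₁ r₁ T₁) (σ₂ : Cel s₂ n₂ r₂ T₂) (p : Spl X X₁ X₂ nc n₁ n₂ d Sl T T₁ T₂),
    (∀ ε, ∃ g : (d.e ε).Gen, g.OK) → p.OK σ σ₁ σ₂ → ∀ K₁ ∈ s₁.nk (p.ε, p.aL), ∀ K₂ ∈ s₂.nk (p.ε, p.aR),
      K₁.Inf true → K₂.Inf false → A s s₁ s₂ σ σ₁ σ₂ p (sp p (ht K₁ true) (ht K₂ false))

/-- GL-HT: heights -/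
def HtStmt : Prop := All d X X₁ X₂ nc nr n₁ r₁ n₂ r₂ T T₁ T₂ Sl fun _ _ _ _ _ _ _ S =>
  ∀ᶠ δ in S.lg, ∃ g, Ht (S.φ₁ δ) S.g₁ g (3 * S.Λ δ + 3) ∧
    Ht (S.φ₂ δ) S.g₂ (fun p => 4 * S.Λ δ - g p) (3 * S.Λ δ + 3)

/-- GL-MT: the equations correspond -/
def MtStmt : Prop := All d X X₁ X₂ nc nr n₁ r₁ n₂ r₂ T T₁ T₂ Sl fun _ _ _ σ σ₁ σ₂ _ S =>
  ∀ J, ∀ᶠ a in atTop, ∀ᶠ δ in S.lg, ∀ t₁ ∈ σ₁.Q, ∀ t₂ ∈ σ₂.Q, S.θ δ (t₁, t₂) ∈ σ.Q ∧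
    Mt (σ.P (S.θ δ (t₁, t₂))) (σ₁.P t₁) (S.φ₁ δ) S.g₁ (3 * S.Λ δ + 3) J (fun j => S.e (.inl j)) a ∧
    Mt (σ.P (S.θ δ (t₁, t₂))) (σ₂.P t₂) (S.φ₂ δ) S.g₂ (3 * S.Λ δ + 3) J (fun j => S.e (.inr j)) a

/-- GL-PRE: pre-gluing -/
def PreStmt : Prop := All d X X₁ X₂ nc nr n₁ r₁ n₂ r₂ T T₁ T₂ Sl fun _ _ _ σ σ₁ σ₂ _ S =>
  ∀ (x : σ₁.Pnt) (z : σ₂.Pnt), ∃ xx zz, ∃ cc : ℝ × ℝ → σ.Pnt, S.Pre x z xx zz cc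

/-- GL-DG: the two forms of degeneration -/
def DgStmt : Prop := All d X X₁ X₂ nc nr n₁ r₁ n₂ r₂ T T₁ T₂ Sl fun _ _ _ σ σ₁ σ₂ p S =>
  ∀ (ι : Type) (l : Filter ι) (y : ι → σ.Pnt) (x : σ₁.Pnt) (z : σ₂.Pnt),
    p.Deg l y x z ↔ S.Deg l y x z

/-- GL-RW: rows and shifts for the four kinds of walls -/
def RwStmt : Prop := All d X X₁ X₂ nc nr n₁ r₁ n₂ r₂ T T₁ T₂ Sl fun _ _ _ σ σ₁ σ₂ p S =>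
  ∀ (x : σ₁.Pnt) (z : σ₂.Pnt), σ₁.R x.1.1 x.1.2 = 0 → σ₂.R z.1.1 z.1.2 = 0 →
    (∃ (m : ℕ) (R : Rw κ ν X X₁ nr r₁ r₂ m T T₁),
      R.OK S σ x z (σ.wf p.wl) ∧ R.Sh S σ x z (σ.wf p.wl)) ∨
    ∃ (m : ℕ) (R : Rw κ ν X X₂ nr r₂ r₁ m T T₂),
      R.OK S.swap σ z x (σ.wf p.wl) ∧ R.Sh S.swap σ z x (σ.wf p.wl)

end spl

end Crest.Agent.X212.Gls64
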