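import Crest.Agent.X212.Gls64.Ch
import Crest.Agent.X212.Pb50.Pt

/-!
# Row 212, GL-S (helper64): multiplication by functions of the height
-/

set_option autoImplicit false
set_option linter.unusedSectionVars false
noncomputable section
open scoped Manifold ContDiff Topology InnerProductSpace
open MeasureTheory Set Function Filter

namespace Crest.Agent.X212.Gls64
open An An.Pre Cyf70 Prm93 Sw Sob92
open M (Mf)
open Neck67 (dn up Bd cS)

section abs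
variable {E F : Type} [NormedAddCommGroup E] [NormedSpace ℝ E] [NormedAddCommGroup F]
  [NormedSpace ℝ F] {k : ℕ} {C : ℝ}

/-- a bounded module over the functions of the height -/
structure IsM (m : (ℝ → ℝ) → E →L[ℝ] E) (k : ℕ) (C : ℝ) : Prop where
  one : ∀ v, m 1 v = v
  add : ∀ {b c}, Neck67.Sm b → Neck67.Sm c → ∀ v, m (b + c) v = m b v + m c v
  smul : ∀ {b}, Neck67.Sm b → ∀ (a : ℝ) v, m (a • b) v = a • m b v
  mul : ∀ {b c}, Neck67.Sm b → Neck67.Sm c → ∀ v, m b (m c v) = m (b * c) v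
  bd : ∀ {b A}, Neck67.Sm b → Bd k b A → ∀ v, ‖m b v‖ ≤ C * A * ‖v‖

/-- windows are almost orthogonal -/
def Win (m : (ℝ → ℝ) → E →L[ℝ] E) (k : ℕ) (C : ℝ) : Prop :=
  ∀ (s : Finset ℕ) (c : ℕ → ℝ → ℝ) (A : ℝ), (∀ j, Neck67.Sm (c j)) → (∀ j, c j 0 = 0) →
    (∀ ε : ℕ → ℝ, (∀ j, |ε j| ≤ 1) → Bd k (∑ j ∈ s, ε j • c j) A) →
    ∀ v, ∑ j ∈ s, ‖m (c j) v‖ ^ 2 ≤ C * A ^ 2 * ‖v‖ ^ 2

namespace IsM
variable {m : (ℝ → ℝ) → E →L[ℝ] E} {m' : (ℝ → ℝ) → F →L[ℝ] F} (h : IsM m k C)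
include h

theorem zero (v : E) : m 0 v = 0 := by simpa using h.smul Neck67.Sm.one 0 v

theorem sub {b c : ℝ → ℝ} (hb : Neck67.Sm b) (hc : Neck67.Sm c) (v : E) :
    m (b - c) v = m b v - m c v := by
  have := h.smul hc (-1) v
  rw [neg_one_smul, neg_one_smul] at this
  rw [sub_eq_add_neg, h.add hb hc.neg, this, sub_eq_add_neg]

theorem up {k' : ℕ} {C' : ℝ} (hk : k ≤ k') (hC : C ≤ C') : IsM m k' C' :=
  ⟨h.one, h.add, h.smul, h.mul, fun hb hA v => (h.bd hb (hA.of_le hk) v).trans (by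
    have := hA.nonneg; gcongr)⟩

theorem prod (h' : IsM m' k C) : IsM (fun b => (m b).prodMap (m' b)) k C :=
  ⟨fun v => Prod.ext (h.one _) (h'.one _), fun hb hc v => Prod.ext (h.add hb hc _) (h'.add hb hc _),
    fun hb a v => Prod.ext (h.smul hb a _) (h'.smul hb a _),
    fun hb hc v => Prod.ext (h.mul hb hc _) (h'.mul hb hc _), fun {b A} hb hA v => by
      rcases le_or_gt 0 (C * A) with h0 | h0
      · exact max_le ((h.bd hb hA _).trans (mul_le_mul_of_nonneg_left (norm_fst_le v) h0))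
          ((h'.bd hb hA _).trans (mul_le_mul_of_nonneg_left (norm_snd_le v) h0))
      · have a1 : ‖v.1‖ = 0 := le_antisymm (by nlinarith [h.bd hb hA v.1, norm_nonneg (m b v.1)])
          (norm_nonneg _)
        have a2 : ‖v.2‖ = 0 := le_antisymm (by nlinarith [h'.bd hb hA v.2, norm_nonneg (m' b v.2)])
          (norm_nonneg _)
        obtain rfl : v = 0 := Prod.ext (norm_eq_zero.1 a1) (norm_eq_zero.1 a2)
        simp only [map_zero, norm_zero, mul_zero, le_refl]⟩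

theorem sum {s : Finset ℕ} {c : ℕ → ℝ → ℝ} (hc : ∀ j, Neck67.Sm (c j)) (v : E) :
    Neck67.Sm (∑ j ∈ s, c j) ∧ m (∑ j ∈ s, c j) v = ∑ j ∈ s, m (c j) v := by
  classical
  induction s using Finset.induction_on with
  | empty => exact ⟨Neck67.Sm.zero, by simpa using h.zero v⟩
  | insert a s ha ih =>
    rw [Finset.sum_insert ha, Finset.sum_insert ha, h.add (hc a) ih.1, ih.2]
    exact ⟨(hc a).add ih.1, rfl⟩

theorem norm_le {b : ℝ → ℝ} {A : ℝ} (hC : 0 ≤ C) (hb : Neck67.Sm b) (hA : Bd k b A) :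
    ‖m b‖ ≤ C * A :=
  ContinuousLinearMap.opNorm_le_bound _ (mul_nonneg hC hA.nonneg) (h.bd hb hA)

end IsM

variable (E k) in
theorem isM_pt (hC : 1 ≤ C) : IsM (fun b => b 0 • ContinuousLinearMap.id ℝ E) k C :=
  ⟨fun v => by simp, fun _ _ v => by simp [add_smul], fun _ a v => by simp [mul_smul],
    fun _ _ v => by simp [smul_smul, mul_comm], fun {b A} _ hA v => by
      have h1 := hA.abs_le 0
      have h2 := hA.nonneg
      rw [smul_apply, norm_smul, Real.norm_eq_abs]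
      exact mul_le_mul_of_nonneg_right (by nlinarith) (norm_nonneg _)⟩

theorem win_pt : Win (fun b => b 0 • ContinuousLinearMap.id ℝ E) k 0 :=
  fun _ _ _ _ h0 _ v => by simp [h0]

theorem Win.prod {m : (ℝ → ℝ) → E →L[ℝ] E} {m' : (ℝ → ℝ) → F →L[ℝ] F} {C' : ℝ} (h : Win m k C)
    (h' : Win m' k C') (hC : 0 ≤ C) (hC' : 0 ≤ C') :
    Win (fun b => (m b).prodMap (m' b)) k (C + C') := fun s c A h1 h2 h3 v => by
  have a1 := h s c A h1 h2 h3 v.1
  have a2 := h' s c A h1 h2 h3 v.2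
  have a3 : ‖v.1‖ ^ 2 ≤ ‖v‖ ^ 2 := by have := norm_fst_le v; gcongr
  have a4 : ‖v.2‖ ^ 2 ≤ ‖v‖ ^ 2 := by have := norm_snd_le v; gcongr
  calc _ ≤ ∑ j ∈ s, (‖m (c j) v.1‖ ^ 2 + ‖m' (c j) v.2‖ ^ 2) := Finset.sum_le_sum fun j _ => by
        change max ‖m (c j) v.1‖ ‖m' (c j) v.2‖ ^ 2 ≤ _
        rcases max_choice ‖m (c j) v.1‖ ‖m' (c j) v.2‖ with e | e <;> rw [e] <;>
          [exact le_add_of_nonneg_right (sq_nonneg _); exact le_add_of_nonneg_left (sq_nonneg _)]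
    _ ≤ C * A ^ 2 * ‖v‖ ^ 2 + C' * A ^ 2 * ‖v‖ ^ 2 := by
        rw [Finset.sum_add_distrib]
        exact add_le_add (a1.trans (by gcongr)) (a2.trans (by gcongr))
    _ = _ := by ring

theorem Win.up {m : (ℝ → ℝ) → E →L[ℝ] E} {k' : ℕ} (h : Win m k C) (hk : k ≤ k') : Win m k' C :=
  fun s c A h1 h2 h3 => h s c A h1 h2 fun ε hε => (h3 ε hε).of_le hk

variable {H : Type} [NormedAddCommGroup H] [InnerProductSpace ℝ H]

theorem exists_sign (s : Finset ℕ) (w : ℕ → H) :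
    ∃ ε : ℕ → ℝ, (∀ j, |ε j| ≤ 1) ∧ ∑ j ∈ s, ‖w j‖ ^ 2 ≤ ‖∑ j ∈ s, ε j • w j‖ ^ 2 := by
  classical
  induction s using Finset.induction_on with
  | empty => exact ⟨0, by simp, by simp⟩
  | insert a s ha ih =>
    obtain ⟨ε, h1, h2⟩ := ih
    have key : ∀ r : ℝ, ∑ j ∈ insert a s, update ε a r j • w j = r • w a + ∑ j ∈ s, ε j • w j :=
      fun r => by
        rw [Finset.sum_insert ha, update_self]
        exact congrArg _ (Finset.sum_congr rfl fun j hj => by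
          rw [update_of_ne (ne_of_mem_of_not_mem hj ha)])
    have hb : ∀ r : ℝ, |r| ≤ 1 → ∀ j, |update ε a r j| ≤ 1 := fun r hr j => by
      rcases eq_or_ne j a with rfl | e
      · rwa [update_self]
      · rw [update_of_ne e]; exact h1 j
    rw [Finset.sum_insert ha]
    rcases le_total 0 ⟪w a, ∑ j ∈ s, ε j • w j⟫_ℝ with h | h
    · refine ⟨_, hb 1 (by simp), ?_⟩
      rw [key, one_smul, norm_add_sq_real]; linarith
    · refine ⟨_, hb (-1) (by simp), ?_⟩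
      rw [key, neg_one_smul, norm_add_sq_real, inner_neg_left, norm_neg]; linarith

theorem IsM.win {m : (ℝ → ℝ) → H →L[ℝ] H} (h : IsM m k C) : Win m k (C ^ 2) :=
  fun s c A h1 _ h3 v => by
    obtain ⟨ε, a1, a2⟩ := exists_sign s fun j => m (c j) v
    obtain ⟨a3, a4⟩ := h.sum (s := s) (fun j => (h1 j).smul (ε j)) v
    have a5 := h.bd a3 (h3 ε a1) v
    rw [a4, Finset.sum_congr rfl fun j _ => h.smul (h1 j) (ε j) v] at a5
    refine a2.trans ((pow_le_pow_left₀ (norm_nonneg _) a5 2).trans_eq (by ring))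

end abs

section hg
variable {X : Mf 4} {ι : Type} [Fintype ι] {F : Pre X.I X.M ι} {g : X.M → ℝ}

/-- a height function -/
structure Hg (F : Pre X.I X.M ι) (g : X.M → ℝ) : Prop where
  sm : Sm X.I g
  cb : ∀ a, F.Cb (F.D a g)

theorem sm_comp (ht : Sm X.I g) {b : ℝ → ℝ} (hb : ContDiff ℝ ∞ b) : Sm X.I fun x => b (g x) :=
  hb.contMDiff.comp ht

theorem D_comp (ht : Sm X.I g) {b : ℝ → ℝ} (hb : ContDiff ℝ ∞ b) (a : ι) (x : X.M) :
    F.D a (fun x => b (g x)) x = deriv b (g x) * F.D a g x := by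
  rw [Pre.D_def, dv_comp (ht.mdifferentiableAt (by simp))
    (Neck67.cd_diff hb _).hasDerivAt.hasFDerivAt]
  simp [Pre.D_def, mul_comm]

theorem Hg.cb_comp (h : Hg F g) (k : ℕ) : ∃ C, 1 ≤ C ∧ ∀ b A, ContDiff ℝ ∞ b → Bd k b A →
    F.CB k (fun x => b (g x)) (C * A) := by
  obtain ⟨Ct, hC⟩ := Cb_unif h.cb
  induction k with
  | zero => exact ⟨1, le_rfl, fun b A _ hA => CB_zero.2 fun x => by simpa using hA (g x)⟩
  | succ k ih =>
    obtain ⟨C, h1, ih⟩ := ih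
    refine ⟨max 1 (2 ^ (k + 1) * C * |Ct k|), le_max_left _ _, fun b A hb hA => ?_⟩
    have h0 := hA.nonneg
    refine CB_succ.2 ⟨fun x => (hA.1 _).trans (le_mul_of_one_le_left h0 (le_max_left _ _)),
      fun a => ?_⟩
    have e : F.D a (fun x => b (g x)) =
        fun x => ContinuousLinearMap.mul ℝ ℝ (deriv b (g x)) (F.D a g x) :=
      funext fun x => D_comp h.sm hb a x
    rw [e]
    refine CB_mono (CB_bil (ContinuousLinearMap.mul ℝ ℝ) (sm_comp h.sm (Neck67.cd_deriv hb))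
      (F.sm_D h.sm a) (ih _ _ (Neck67.cd_deriv hb) hA.2) ((hC a).2 k)) ?_
    rw [abs_of_nonneg (by positivity : 0 ≤ C * A)]
    have h2 := ContinuousLinearMap.opNorm_mul_le ℝ ℝ
    calc _ ≤ 2 ^ (k + 1) * 1 * (C * A) * |Ct k| := by gcongr
      _ = 2 ^ (k + 1) * C * |Ct k| * A := by ring
      _ ≤ _ := mul_le_mul_of_nonneg_right (le_max_right _ _) h0

theorem Hg.Cb (h : Hg F g) {b : ℝ → ℝ} (hb : Neck67.Sm b) : F.Cb fun x => b (g x) := by
  choose C _ hC using h.cb_comp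
  choose A hA using hb.bd
  exact ⟨fun k => C k * A k, sm_comp h.sm hb.cd, fun k => hC k _ _ hb.cd (hA k)⟩

theorem Hg.isM (h : Hg F g) (k : ℕ) : ∃ C, 1 ≤ C ∧ ∀ (V : Type) [NormedAddCommGroup V]
    [InnerProductSpace ℝ V] (p : X.M → V →L[ℝ] V) (j : ℕ), j ≤ k →
    IsM (fun b => smulH F j p fun x => b (g x)) k C := by
  obtain ⟨C, h1, h2⟩ := h.cb_comp k
  have c1 : ∀ j ≤ k, cK ι j ≤ max 1 (cK ι k) := fun j hj => le_max_of_le_right
    (Real.sqrt_le_sqrt (pow_le_pow_right₀ (by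
      have : (0 : ℝ) ≤ Fintype.card ι := by positivity
      linarith) hj))
  refine ⟨max 1 (cK ι k) * C, one_le_mul_of_one_le_of_one_le (le_max_left _ _) h1,
    fun V _ _ p j hj => ⟨fun v => ?_, fun {b c} hb hc v => ?_, fun {b} hb a v => ?_,
      fun {b c} hb hc v => ?_, fun {b A} hb hA v => ?_⟩⟩
  · exact DFunLike.congr_fun (RepT_eq (rep_smulH (h.Cb Neck67.Sm.one)) Rep_id
      fun u => funext fun x => one_smul _ _) v
  · exact DFunLike.congr_fun (RepT_eq (rep_smulH (h.Cb (hb.add hc)))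
      (RepT_add (rep_smulH (h.Cb hb)) (rep_smulH (h.Cb hc)))
      fun u => funext fun x => add_smul _ _ _) v
  · exact DFunLike.congr_fun (RepT_eq (rep_smulH (h.Cb (hb.smul a)))
      (RepT_smul a (rep_smulH (h.Cb hb))) fun u => funext fun x => mul_smul _ _ _) v
  · exact DFunLike.congr_fun (RepT_eq (RepT_comp (rep_smulH (h.Cb hb)) (rep_smulH (h.Cb hc)))
      (rep_smulH (h.Cb (hb.mul hc))) fun u => funext fun x => (mul_smul _ _ _).symm) v
  · have a0 := hA.nonneg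
    have a1 := (rep_smulH' (k := j) (p := p) (sm_comp h.sm hb.cd)
      (CB_of_le (h2 b A hb.cd hA) hj)).2
    rw [abs_of_nonneg (by positivity)] at a1
    refine ContinuousLinearMap.le_of_opNorm_le _ (a1.trans ?_) v
    rw [mul_assoc]
    exact mul_le_mul_of_nonneg_right (c1 j hj) (by positivity)

end hg

theorem sm_χ (Λ : ℝ) : Neck67.Sm (χ Λ) := Neck67.sm_dn le_rfl _

theorem bd_χ (k : ℕ) (Λ : ℝ) : Bd k (χ Λ) (cS k) := (Neck67.bd_dn k le_rfl _).of_succ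

theorem χ_zero {Λ t : ℝ} (h : 2 * Λ + 1 / 2 ≤ t) : χ Λ t = 0 := Neck67.dn_zero one_pos h

theorem χ_one {Λ t : ℝ} (h : t ≤ 2 * Λ - 1 / 2) : χ Λ t = 1 :=
  Neck67.dn_one one_pos (by linarith)

theorem st_add (x : ℝ) : Real.smoothTransition x + Real.smoothTransition (1 - x) = 1 := by
  have := Real.smoothTransition.pos_denom x
  simp only [Real.smoothTransition, sub_sub_cancel]
  rw [add_comm (expNegInvGlue (1 - x))]
  field_simp

theorem χ_add (Λ t : ℝ) : χ Λ t + χ Λ (4 * Λ - t) = 1 := by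
  rw [← st_add (2 * Λ + 1 / 2 - t)]
  simp only [χ, dn]
  congr 2 <;> ring

variable {κ lam ν : Type} [Fintype κ] [Fintype lam] [Fintype ν] [DecidableEq ν]
  {d : Dt κ lam ν} {N : Type} [Fintype N] {ty : N → d.𝓔} {X X₁ X₂ : Mf 4}
  {nc nr n₁ r₁ n₂ r₂ m : ℕ}
  {T T₁ T₂ : Type} [NormedAddCommGroup T] [NormedSpace ℝ T] [FiniteDimensional ℝ T]
  [NormedAddCommGroup T₁] [NormedSpace ℝ T₁] [FiniteDimensional ℝ T₁]
  [NormedAddCommGroup T₂] [NormedSpace ℝ T₂] [FiniteDimensional ℝ T₂]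
  {s : Pz X 0 fun i => d.e (ty i)} {s₁ : Pz X₁ 0 fun i => d.e (ty i)}
  {s₂ : Pz X₂ 0 fun i => d.e (ty i)} {σ : Cel s nc nr T} {σ₁ : Cel s₁ n₁ r₁ T₁}
  {σ₂ : Cel s₂ n₂ r₂ T₂} {g : X.M → ℝ} {k : ℕ}

theorem Face.hg {J : Finset d.W} {a : ℝ} (h : Face σ g J a) : Hg s.bg.F.toPre g := ⟨h.sm, h.cb⟩

theorem Sp.Geo.hg {S : Sp X X₁ X₂ nc n₁ n₂ T T₁ T₂} (h : S.Geo σ σ₁ σ₂) :
    Hg s₁.bg.F.toPre S.g₁ ∧ Hg s₂.bg.F.toPre S.g₂ :=
  let ⟨_, h1, h2, _⟩ := (h.mt ∅).exists; ⟨h1.hg, h2.hg⟩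

variable (σ k) in
theorem Hg.isM_cel (h : Hg s.bg.F.toPre g) : ∃ C, 1 ≤ C ∧ IsM (mC σ k g) (k + 1) C ∧
    IsM (mY σ k g) (k + 1) C ∧ IsM (mH σ k g) (k + 1) C ∧
    (∀ m, IsM (fun b => mZ σ k g b m) (k + 1) C) ∧ Win (mC σ k g) (k + 1) (2 * C ^ 2) := by
  obtain ⟨C, h1, h2⟩ := h.isM (k + 1)
  have a1 : IsM (mY σ k g) (k + 1) C :=
    (h2 _ _ k k.le_succ).prod ((h2 _ _ k k.le_succ).prod (isM_pt _ _ h1))
  refine ⟨C, h1, (h2 _ _ _ le_rfl).prod ((h2 _ _ _ le_rfl).prod (isM_pt _ _ h1)), a1,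
    h2 _ _ k k.le_succ, fun m => a1.prod ((h2 _ _ k k.le_succ).prod (isM_pt _ _ h1)), ?_⟩
  have := (h2 _ s.bg.p1 _ le_rfl).win.prod ((h2 _ s.bg.pp _ le_rfl).win.prod (win_pt (E := T))
    (by positivity) le_rfl) (by positivity) (by positivity)
  rw [add_zero, ← two_mul] at this
  exact this

variable (σ₁ σ₂ k) in
theorem isM_two {g₁ : X₁.M → ℝ} {g₂ : X₂.M → ℝ} (h₁ : Hg s₁.bg.F.toPre g₁)
    (h₂ : Hg s₂.bg.F.toPre g₂) : ∃ C, 1 ≤ C ∧ IsM (mE σ₁ σ₂ k g₁ g₂) (k + 1) C ∧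
      IsM (mF σ₁ σ₂ k g₁ g₂) (k + 1) C ∧ Win (mE σ₁ σ₂ k g₁ g₂) (k + 1) C := by
  obtain ⟨C, a0, a1, a2, a3, -, a4⟩ := h₁.isM_cel σ₁ k
  obtain ⟨C', b0, b1, b2, b3, -, b4⟩ := h₂.isM_cel σ₂ k
  have c1 : C ≤ 2 * C ^ 2 + 2 * C' ^ 2 := by nlinarith
  have c2 : C' ≤ 2 * C ^ 2 + 2 * C' ^ 2 := by nlinarith
  exact ⟨_, a0.trans c1, (a1.up le_rfl c1).prod (b1.up le_rfl c2),
    ((a2.prod a3).up le_rfl c1).prod ((b2.prod b3).up le_rfl c2),
    a4.prod b4 (by positivity) (by positivity)⟩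

section val
variable (hσ : σ.toFam.OK) (h : Hg s.bg.F.toPre g) {b : ℝ → ℝ} (hb : Neck67.Sm b)
include hσ h hb

theorem val_mC (hk : 3 ≤ k) (v : σ.C k) (x : X.M) :
    s.bg.F.val _ _ (mC σ k g b v).1 x = b (g x) • s.bg.F.val _ _ v.1 x ∧
    s.bg.F.val _ _ (mC σ k g b v).2.1 x = b (g x) • s.bg.F.val _ _ v.2.1 x ∧
    (mC σ k g b v).2.2 = b 0 • v.2.2 :=
  have hS := Sup.of_tame hσ.site.bg.tame.choose_spec
  ⟨val_smulH hS (by omega) (h.Cb hb) _ x, val_smulH hS (by omega) (h.Cb hb) _ x, rfl⟩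

theorem val_mY (hk : 4 ≤ k) (f : σ.Y k) (x : X.M) :
    s.bg.F.val _ _ (mY σ k g b f).1 x = b (g x) • s.bg.F.val _ _ f.1 x ∧
    s.bg.F.val _ _ (mY σ k g b f).2.1 x = b (g x) • s.bg.F.val _ _ f.2.1 x ∧
    (mY σ k g b f).2.2 = b 0 • f.2.2 :=
  have hS := Sup.of_tame hσ.site.bg.tame.choose_spec
  ⟨val_smulH hS hk (h.Cb hb) _ x, val_smulH hS hk (h.Cb hb) _ x, rfl⟩

theorem val_mH (hk : 4 ≤ k) (f : Hr σ k) (x : X.M) :
    s.bg.F.val _ _ (mH σ k g b f) x = b (g x) • s.bg.F.val _ _ f x :=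
  val_smulH (Sup.of_tame hσ.site.bg.tame.choose_spec) hk (h.Cb hb) _ x

/-- points that agree on the support of the cut-off -/
theorem kill (hβ : s.Cr σ.β) (hk : 3 ≤ k) {y y' : σ.Pnt} (ht : y.1.1 = y'.1.1)
    (ha : Ag id {x | b (g x) ≠ 0} y.1.2 y'.1.2) : mC σ k g b (σ.pt k y - σ.pt k y') = 0 := by
  have hS := Sup.of_tame hσ.site.bg.tame.choose_spec
  refine Prod.ext (val_injective hS (by omega) (funext fun x => ?_))
    (Prod.ext (val_injective hS (by omega) (funext fun x => ?_)) ?_)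
  · rw [(val_mC hσ h hb hk _ x).1, Prod.fst_zero, val_zero, Prod.fst_sub, val_sub,
      Pb50.val_a hσ hβ hk, Pb50.val_a hσ hβ hk]
    by_cases hx : b (g x) = 0
    · simp [hx]
    · have : σ.al y.1.1 y.1.2 x = σ.al y'.1.1 y'.1.2 x := by
        simp only [Fam.al, ht, show ∀ a, y.1.2.a a x = y'.1.2.a a x from (ha x hx).1]
      simp [this]
  · rw [(val_mC hσ h hb hk _ x).2.1, Prod.snd_zero, Prod.fst_zero, val_zero, Prod.snd_sub,
      Prod.fst_sub, val_sub, Pb50.val_Φ hσ hβ hk, Pb50.val_Φ hσ hβ hk]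
    by_cases hx : b (g x) = 0
    · simp [hx]
    · simp [show y.1.2.Φ x = y'.1.2.Φ x from (ha x hx).2]
  · change b 0 • (y.1.1 - y'.1.1) = 0
    rw [ht, sub_self, smul_zero]

end val

end Crest.Agent.X212.Gls64
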