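import Crest.Agent.X212.Gls64.Mod
import Crest.Agent.X212.Rf65.Abs
import Crest.Agent.X212.Fred93.Cpt

/-!
# Row 212, GL-S (helper64): the abstract gluing lemma and the commutator estimate
-/

set_option autoImplicit false
set_option linter.unusedSectionVars false
noncomputable section
open Set Function Filter Topology Metric

namespace Crest.Agent.X212.Gls64
open Neck67 (dn up Bd cS Near)

variable {C Y E F : Type} [NormedAddCommGroup C] [NormedSpace ℝ C] [CompleteSpace C]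
  [NormedAddCommGroup Y] [NormedSpace ℝ Y] [CompleteSpace Y] [NormedAddCommGroup E]
  [NormedSpace ℝ E] [CompleteSpace E] [NormedAddCommGroup F] [NormedSpace ℝ F] [CompleteSpace F]
  {P : C →L[ℝ] E} {P' : Y →L[ℝ] F} {H : C → Y} {K r ε : ℝ}

theorem exists_rng {B : ℝ} (h : ∀ u, ‖u‖ ≤ B * ‖P u‖) :
    IsClosed (range P) ∧ ∃ e : C ≃L[ℝ] P.range, ∀ u, ‖e u‖ = ‖P u‖ := by
  have h1 : IsClosed (range P) := Fred93.isClosed_range_of_bound h
  have h2 : Injective P := (injective_iff_map_eq_zero _).2 fun u hu => by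
    have := h u
    rw [hu, norm_zero, mul_zero] at this
    exact norm_le_zero_iff.1 this
  exact ⟨h1, P.equivRange h2 h1, fun _ => rfl⟩

theorem cht_of_est {B B' : ℝ} (hP : ∀ u, ‖u‖ ≤ B * ‖P u‖) (hP' : ∀ f, ‖f‖ ≤ B' * ‖P' f‖)
    (hK : 0 ≤ K) (hr : 0 ≤ r) (hd : ∀ u, ‖P u‖ ≤ r → DifferentiableAt ℝ H u)
    (fr : Fred93.Fr (fderiv ℝ H 0) 0) (low : ∀ w, ‖P w‖ ≤ K * ‖P' (fderiv ℝ H 0 w)‖)
    (dif : ∀ u, ‖P u‖ ≤ r → ∀ w, ‖P' (fderiv ℝ H u w - fderiv ℝ H 0 w)‖ ≤ ε * ‖P w‖)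
    (bd : ∀ u, ‖P u‖ ≤ r → ∀ w, ‖P' (fderiv ℝ H u w)‖ ≤ 2 * K * ‖P w‖) (hε0 : 0 ≤ ε)
    (hε : K * ε ≤ 1 / 2) : Cht P P' H (2 * K) r := by
  obtain ⟨c1, e, he⟩ := exists_rng hP
  obtain ⟨c2, J, hJ⟩ := exists_rng hP'
  have : CompleteSpace P.range := c1.completeSpace_coe
  have : CompleteSpace P'.range := c2.completeSpace_coe
  have he' : ∀ v, ‖P (e.symm v)‖ = ‖v‖ := fun v => by rw [← he, e.apply_symm_apply]
  let G : P.range → P'.range := fun v => J (H (e.symm v))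
  let G' : P.range → P.range →L[ℝ] P'.range := fun v =>
    (J : Y →L[ℝ] _) ∘L fderiv ℝ H (e.symm v) ∘L (e.symm : _ →L[ℝ] C)
  have m : ∀ {v : P.range}, v ∈ closedBall (0 : P.range) r → ‖P (e.symm v)‖ ≤ r := fun hv =>
    (he' _).trans_le (mem_closedBall_zero_iff.1 hv)
  have m' : ∀ {u}, ‖P u‖ ≤ r → e u ∈ closedBall (0 : P.range) r := fun hu =>
    mem_closedBall_zero_iff.2 ((he _).trans_le hu)
  have d : ∀ v ∈ closedBall (0 : P.range) r, HasFDerivAt G (G' v) v := fun v hv =>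
    (J : Y →L[ℝ] P'.range).hasFDerivAt.comp v ((hd _ (m hv)).hasFDerivAt.comp v
      e.symm.hasFDerivAt)
  obtain ⟨L, hL, hn⟩ := Rf65.exists_equiv_of_low (A := G' 0) (K := K)
    (by simpa only [G', map_zero] using fr.conj e.symm J) hK fun v => by
      rw [← he' v]
      refine (low _).trans_eq ?_
      simp only [G', map_zero, ← hJ]; rfl
  have hN : Near L G G' 0 r := ⟨d, fun v hv => by
    refine le_trans (mul_le_mul hn (ContinuousLinearMap.opNorm_le_bound _ hε0 fun w => ?_)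
      (norm_nonneg _) hK) hε
    rw [← he' w]
    refine le_of_eq_of_le ?_ (dif _ (m hv) _)
    rw [← hJ, map_sub J, hL]
    simp only [G', map_zero]; rfl⟩
  have k : ∀ a : ℝ, 0 ≤ a → 2 * ‖(L.symm : P'.range →L[ℝ] P.range)‖ * a ≤ 2 * K * a :=
    fun a ha => by gcongr
  have g : ∀ u u', ‖G (e u) - G (e u')‖ = ‖P' (H u - H u')‖ := fun u u' => by
    simp only [G, e.symm_apply_apply, ← map_sub, hJ]
  refine ⟨⟨B, hP⟩, fun f hf => ?_, fun u u' hu hu' => ?_, fun u hu => ?_, fun u hu => ?_⟩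
  · obtain ⟨v, hv, ev⟩ := hN.ex (y := J f) ((k _ (norm_nonneg _)).trans (by
      simpa only [G, map_zero, ← map_sub, hJ] using hf))
    exact ⟨_, m hv, J.injective ev⟩
  · have := (hN.low (m' hu') (m' hu)).trans (k _ (norm_nonneg _))
    rwa [← map_sub, he, g] at this
  · have := (convex_closedBall (0 : P.range) r).norm_image_sub_le_of_norm_hasFDerivWithin_le
      (C := 2 * K) (fun v hv => (d v hv).hasFDerivWithinAt) (fun v hv =>
        ContinuousLinearMap.opNorm_le_bound _ (by positivity) fun w => by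
          rw [← he' w]
          exact le_of_eq_of_le (hJ _) (bd _ (m hv) _)) (m' (u := 0) (by simpa using hr)) (m' hu)
    rwa [g, ← map_sub, he, sub_zero] at this
  · obtain ⟨A, hA, -⟩ := hN.inv (m' hu)
    intro f
    obtain ⟨v, hv⟩ := A.surjective (J f)
    refine ⟨e.symm v, J.injective ?_⟩
    have := DFunLike.congr_fun hA v
    simp only [G', e.symm_apply_apply] at this
    exact this.symm.trans hv

/-- **abstract gluing** -/
theorem ag {Q : E →L[ℝ] C} {Q' : F →L[ℝ] Y} {χE : E →L[ℝ] E} {χF : F →L[ℝ] F} {S : E → F}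
    {L : E ≃L[ℝ] F} {B : Set ((E →L[ℝ] E) × (F →L[ℝ] F))} (hK : 1 ≤ K) (hr : 0 < r)
    (i1 : ∀ u, Q (χE (P u)) = u) (i2 : ∀ f, Q' (χF (P' f)) = f) (b1 : ‖P ∘L Q‖ ≤ K)
    (b2 : ‖P' ∘L Q'‖ ≤ K) (b3 : ‖χE‖ ≤ K) (b4 : ‖χF‖ ≤ K) (b5 : ‖(L : E →L[ℝ] F)‖ ≤ K)
    (b6 : ‖(L.symm : F →L[ℝ] E)‖ ≤ K)
    (hB : ∀ β ∈ B, (∀ v, χE (β.1 v) = χE v) ∧ (∀ f, χF (β.2 f) = χF f) ∧ ‖β.2‖ ≤ K ∧
      ∀ u, ‖P u‖ ≤ 2 * r → β.2 (P' (H u)) = β.2 (S (P u)))
    (com : ∀ v, ∃ β ∈ B, ‖L (β.1 v) - β.2 (L v)‖ ≤ ε * ‖v‖)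
    (hd : ∀ u, ‖P u‖ ≤ r → DifferentiableAt ℝ H u)
    (c1 : ∀ v, ‖v‖ ≤ r → DifferentiableAt ℝ S v ∧ ‖fderiv ℝ S v - L‖ ≤ ε)
    (fr : Fred93.Fr (fderiv ℝ H 0) 0) (hε : 8 * K ^ 7 * ε ≤ 1) :
    Cht P P' H (4 * K ^ 4) r ∧ ‖P' (H 0)‖ ≤ K ^ 3 * ‖S 0‖ := by
  have K0 : 0 < K := one_pos.trans_le hK
  have z : ‖P 0‖ ≤ r := by simpa using hr.le
  have ε0 : 0 ≤ ε := (norm_nonneg _).trans (c1 _ z).2
  have k1 : K ^ 4 * ε ≤ 1 / 8 := by
    have : K ^ 4 ≤ K ^ 7 := pow_le_pow_right₀ hK (by norm_num)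
    nlinarith
  have k2 : ε ≤ K := by
    have : 1 ≤ K ^ 4 := one_le_pow₀ hK
    nlinarith
  have u1 : ∀ w, ∀ β ∈ B, ‖P w‖ ≤ K ^ 2 * ‖β.1 (P w)‖ := fun w β hβ => by
    have a1 := (P ∘L Q).le_of_opNorm_le b1 (χE (P w))
    have a2 := χE.le_of_opNorm_le b3 (β.1 (P w))
    rw [ContinuousLinearMap.comp_apply, i1, ← (hB β hβ).1] at a1
    nlinarith
  have u2 : ∀ f, ∀ β ∈ B, ‖P' f‖ ≤ K ^ 2 * ‖β.2 (P' f)‖ := fun f β hβ => by
    have a1 := (P' ∘L Q').le_of_opNorm_le b2 (χF (P' f))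
    have a2 := χF.le_of_opNorm_le b4 (β.2 (P' f))
    rw [ContinuousLinearMap.comp_apply, i2, ← (hB β hβ).2.1] at a1
    nlinarith
  have dd : ∀ β ∈ B, ∀ u, ‖P u‖ ≤ r → ∀ w,
      β.2 (P' (fderiv ℝ H u w)) = β.2 (fderiv ℝ S (P u) (P w)) := fun β hβ u hu w => by
    have e : ∀ᶠ v in 𝓝 u, β.2 (P' (H v)) = β.2 (S (P v)) :=
      ((P.continuous.norm.tendsto u).eventually_le_const (by linarith : ‖P u‖ < 2 * r)).mono
        (hB β hβ).2.2.2
    exact DFunLike.congr_fun ((β.2.hasFDerivAt.comp u (P'.hasFDerivAt.comp u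
      (hd u hu).hasFDerivAt)).unique ((β.2.hasFDerivAt.comp u ((c1 _ hu).1.hasFDerivAt.comp u
        P.hasFDerivAt)).congr_of_eventuallyEq e)) w
  have cl : ∀ u, ‖P u‖ ≤ r → ∀ v, ‖fderiv ℝ S (P u) v - L v‖ ≤ ε * ‖v‖ := fun u hu v =>
    (fderiv ℝ S (P u) - L).le_of_opNorm_le (c1 _ hu).2 v
  obtain ⟨β, hβ, -⟩ := com 0
  have u3 : ∀ f g, β.2 (P' f) = β.2 g → ‖P' f‖ ≤ K ^ 3 * ‖g‖ := fun f g e => by
    have a1 := u2 f β hβ
    have a2 := β.2.le_of_opNorm_le (hB β hβ).2.2.1 g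
    rw [e] at a1
    nlinarith [mul_le_mul_of_nonneg_left a2 (sq_nonneg K)]
  refine ⟨?_, by simpa using u3 _ _ ((hB β hβ).2.2.2 0 (by linarith))⟩
  rw [show 4 * K ^ 4 = 2 * (2 * K ^ 4) by ring]
  refine cht_of_est (B := ‖Q ∘L χE‖) (B' := ‖Q' ∘L χF‖) (ε := 2 * K ^ 3 * ε)
    (fun u => by simpa [i1] using (Q ∘L χE).le_opNorm (P u))
    (fun f => by simpa [i2] using (Q' ∘L χF).le_opNorm (P' f)) (by positivity) hr.le hd fr
    (fun w => ?_) (fun u hu w => ?_) (fun u hu w => ?_) (by positivity) (by nlinarith)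
  · obtain ⟨γ, hγ, c⟩ := com (P w)
    have a1 := u1 w γ hγ
    have a2 := (L.symm : F →L[ℝ] E).le_of_opNorm_le b6 (L (γ.1 (P w)))
    have a3 := γ.2.le_of_opNorm_le (hB γ hγ).2.2.1 (P' (fderiv ℝ H 0 w))
    have a4 := γ.2.le_of_opNorm_le (hB γ hγ).2.2.1 (fderiv ℝ S (P 0) (P w) - L (P w))
    have a5 := cl 0 z (P w)
    have a6 := norm_add₃_le (a := L (γ.1 (P w)) - γ.2 (L (P w))) (b := γ.2 (P' (fderiv ℝ H 0 w)))
      (c := -γ.2 (fderiv ℝ S (P 0) (P w) - L (P w)))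
    rw [norm_neg, dd γ hγ 0 z, map_sub γ.2] at a6
    rw [ContinuousLinearEquiv.coe_coe, L.symm_apply_apply] at a2
    rw [dd γ hγ 0 z] at a3
    rw [map_sub γ.2] at a4
    rw [show ∀ a b c : F, a - b + c + -(c - b) = a from fun a b c => by abel] at a6
    have p0 := norm_nonneg (P w)
    have a7 : ‖L (γ.1 (P w))‖ ≤ K * ‖P' (fderiv ℝ H 0 w)‖ + 2 * K * (ε * ‖P w‖) := by
      nlinarith [mul_le_mul_of_nonneg_left a5 K0.le, mul_nonneg ε0 p0]
    have a8 : ‖P w‖ ≤ K ^ 3 * ‖L (γ.1 (P w))‖ := by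
      nlinarith [mul_le_mul_of_nonneg_left a2 (sq_nonneg K)]
    nlinarith [mul_le_mul_of_nonneg_left a7 (pow_pos K0 3).le,
      mul_le_mul_of_nonneg_right k1 p0]
  · have a1 := u3 (fderiv ℝ H u w - fderiv ℝ H 0 w)
      ((fderiv ℝ S (P u) (P w) - L (P w)) - (fderiv ℝ S (P 0) (P w) - L (P w))) (by
        simp only [map_sub, dd β hβ u hu, dd β hβ 0 z]; abel)
    have a2 := (norm_sub_le _ _).trans (add_le_add (cl u hu (P w)) (cl 0 z (P w)))
    nlinarith [mul_le_mul_of_nonneg_left a2 (pow_pos K0 3).le]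
  · have a1 := u3 _ _ (dd β hβ u hu w)
    have a2 := norm_add_le (fderiv ℝ S (P u) (P w) - L (P w)) (L (P w))
    have a3 : ‖L (P w)‖ ≤ K * ‖P w‖ := (L : E →L[ℝ] F).le_of_opNorm_le b5 (P w)
    rw [sub_add_cancel] at a2
    have p0 := norm_nonneg (P w)
    have a4 : ‖fderiv ℝ S (P u) (P w)‖ ≤ 2 * K * ‖P w‖ := by
      nlinarith [cl u hu (P w), mul_le_mul_of_nonneg_right k2 p0]
    nlinarith [mul_le_mul_of_nonneg_left a4 (pow_pos K0 3).le, mul_nonneg (pow_pos K0 4).le p0]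

/-- functions with disjoint supports -/
theorem bd_sum {s : Finset ℕ} {O : ℕ → Set ℝ} (hO : ∀ j, IsClosed (O j))
    (dj : ∀ i j t, t ∈ O i → t ∈ O j → i = j) {ε : ℕ → ℝ} (hε : ∀ j, |ε j| ≤ 1) {A : ℝ}
    (hA : 0 ≤ A) (k : ℕ) : ∀ {c : ℕ → ℝ → ℝ}, (∀ j, Neck67.Sm (c j)) → (∀ j, Bd k (c j) A) →
      (∀ j t, t ∉ O j → c j t = 0) → Bd k (∑ j ∈ s, ε j • c j) A := by
  have h0 : ∀ {c : ℕ → ℝ → ℝ}, (∀ j t, |c j t| ≤ A) → (∀ j t, t ∉ O j → c j t = 0) →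
      ∀ t, |(∑ j ∈ s, ε j • c j) t| ≤ A := fun {c} h1 h2 t => by
    rw [Finset.sum_apply]
    by_cases h : ∃ j ∈ s, t ∈ O j
    · obtain ⟨j, hj, ht⟩ := h
      rw [Finset.sum_eq_single_of_mem j hj fun i _ hi => by
        simp [h2 i t fun h => hi (dj i j t h ht)], Pi.smul_apply, smul_eq_mul, abs_mul]
      nlinarith [hε j, h1 j t, abs_nonneg (c j t), abs_nonneg (ε j)]
    · rw [Finset.sum_eq_zero fun j hj => by simp [h2 j t fun h' => h ⟨j, hj, h'⟩]]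
      simpa using hA
  induction k with
  | zero => exact fun _ h1 h2 => h0 h1 h2
  | succ k ih =>
    intro c h1 h2 h3
    refine ⟨h0 (fun j => (h2 j).1) h3, ?_⟩
    have : deriv (∑ j ∈ s, ε j • c j) = ∑ j ∈ s, ε j • deriv (c j) := funext fun t => by
      rw [deriv_sum fun j _ => ((h1 j).smul (ε j)).diff t, Finset.sum_apply]
      exact Finset.sum_congr rfl fun j _ => deriv_const_smul _ ((h1 j).diff t)
    rw [this]
    exact ih (fun j => (h1 j).deriv) (fun j => (h2 j).2)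
      fun j => Neck67.deriv_zero_off (hO j) (h3 j)

/-- the window round the step at `a` -/
def wd (a : ℝ) : ℝ → ℝ := 1 - dn (a - 4) 1 - up (a + 3) 1

theorem sm_wd (a : ℝ) : Neck67.Sm (wd a) :=
  (Neck67.Sm.one.sub (Neck67.sm_dn le_rfl _)).sub (Neck67.sm_up le_rfl _)

theorem bd_wd (k : ℕ) (a : ℝ) : Bd k (wd a) (3 * cS k) := by
  have h1 : Bd k (1 : ℝ → ℝ) (cS k) := Bd.const (a := 1) (by simpa using Neck67.one_le_cS k)
  exact (Bd.sub (Neck67.Sm.one.sub (Neck67.sm_dn le_rfl _)).cd (Neck67.sm_up le_rfl _).cd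
    (Bd.sub Neck67.Sm.one.cd (Neck67.sm_dn le_rfl _).cd h1 (Neck67.bd_dn k le_rfl _).of_succ)
    (Neck67.bd_up k le_rfl _).of_succ).mono (le_of_eq (by ring))

theorem wd_zero {a t : ℝ} (h : t ∉ Icc (a - 5) (a + 4)) : wd a t = 0 := by
  rcases not_and_or.1 h with h | h
  · simp [wd, Neck67.dn_one one_pos (show t ≤ a - 4 - 1 by linarith [not_le.1 h]),
      Neck67.up_zero one_pos (show t ≤ a + 3 by linarith [not_le.1 h])]
  · simp [wd, Neck67.dn_zero one_pos (show a - 4 ≤ t by linarith [not_le.1 h]),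
      Neck67.up_one one_pos (show a + 3 + 1 ≤ t by linarith [not_le.1 h])]

/-- `L` does not propagate beyond the distance `3` above the height `a₁` -/
def Lc (mE : (ℝ → ℝ) → E →L[ℝ] E) (mF : (ℝ → ℝ) → F →L[ℝ] F) (L : E →L[ℝ] F) (a₁ : ℝ) : Prop :=
  ∀ a, a₁ ≤ a → ∀ b c, Neck67.Sm b → Neck67.Sm c →
    ((∀ t, a ≤ t → b t = 0) ∧ (∀ t, t ≤ a + 3 → c t = 0) ∨
      (∀ t, t ≤ a → b t = 0) ∧ ∀ t, a - 3 ≤ t → c t = 0) → ∀ v, mF b (L (mE c v)) = 0

/-- **the commutator with a suitable step is small** -/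
theorem com {mE : (ℝ → ℝ) → E →L[ℝ] E} {mF : (ℝ → ℝ) → F →L[ℝ] F} {L : E →L[ℝ] F} {k : ℕ}
    {a₁ : ℝ} (hK : 1 ≤ K) (hE : IsM mE k K) (hF : IsM mF k K) (hW : Win mE k K)
    (hL : Lc mE mF L a₁) (hε : 0 < ε) : ∃ n : ℝ, ∀ p, a₁ + 1 ≤ p → 6 ≤ p → ∀ v,
      ∃ a ∈ Icc p (p + n), ‖L (mE (dn a 1) v) - mF (dn a 1) (L v)‖ ≤ ε * ‖v‖ := by
  have c1 := Neck67.one_le_cS k
  set A := 2 * (K * cS k) * ‖L‖
  have A0 : 0 ≤ A := by positivity
  have key : ∀ a, a₁ + 1 ≤ a → ∀ v,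
      ‖L (mE (dn a 1) v) - mF (dn a 1) (L v)‖ ≤ A * ‖mE (wd a) v‖ := fun a ha v => by
    have s0 := Neck67.sm_dn le_rfl a
    have s1 := Neck67.sm_dn le_rfl (a - 4)
    have s2 := Neck67.sm_up le_rfl (a + 3)
    have b0 := (Neck67.bd_dn k le_rfl a).of_succ
    have e0 : v = mE (wd a) v + mE (dn (a - 4) 1) v + mE (up (a + 3) 1) v := by
      rw [wd, hE.sub (Neck67.Sm.one.sub s1) s2, hE.sub Neck67.Sm.one s1, hE.one]; abel
    have e1 : dn a 1 * dn (a - 4) 1 = dn (a - 4) 1 := funext fun t => by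
      rcases le_total (a - 4) t with h | h
      · simp [Neck67.dn_zero one_pos h]
      · simp [Neck67.dn_one one_pos (show t ≤ a - 1 by linarith)]
    have e2 : dn a 1 * up (a + 3) 1 = 0 := funext fun t => by
      rcases le_total a t with h | h
      · simp [Neck67.dn_zero one_pos h]
      · simp [Neck67.up_zero one_pos (show t ≤ a + 3 by linarith)]
    have e3 := hL (a - 1) (by linarith) _ _ (Neck67.Sm.one.sub s0) s1 (.inr ⟨fun t ht => by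
      simp [Neck67.dn_one one_pos ht], fun t ht => Neck67.dn_zero one_pos (by linarith)⟩) v
    have e4 := hL a (by linarith) _ _ s0 s2 (.inl ⟨fun t ht => Neck67.dn_zero one_pos ht,
      fun t ht => Neck67.up_zero one_pos ht⟩) v
    rw [hF.sub Neck67.Sm.one s0, hF.one, sub_eq_zero] at e3
    have e5 : L (mE (dn a 1) v) - mF (dn a 1) (L v) =
        L (mE (dn a 1) (mE (wd a) v)) - mF (dn a 1) (L (mE (wd a) v)) := by
      conv_lhs => rw [e0]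
      simp only [map_add, hE.mul s0 s1, hE.mul s0 s2, e1, e2, hE.zero, map_zero, e4, ← e3]
      abel
    have a1 := (L.le_opNorm _).trans
      (mul_le_mul_of_nonneg_left (hE.bd s0 b0 (mE (wd a) v)) (norm_nonneg _))
    have a2 := (hF.bd s0 b0 _).trans
      (mul_le_mul_of_nonneg_left (L.le_opNorm (mE (wd a) v)) (by positivity))
    rw [e5]
    exact (norm_sub_le _ _).trans ((add_le_add a1 a2).trans_eq (by ring))
  obtain ⟨n, hn⟩ := exists_nat_gt (A ^ 2 * (K * (3 * cS k) ^ 2) / ε ^ 2)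
  have n0 : (0 : ℝ) < n := lt_of_le_of_lt (by positivity) hn
  refine ⟨10 * n, fun p hp hp' v => ?_⟩
  have j0 : ∀ j : ℕ, (0 : ℝ) ≤ j := fun j => j.cast_nonneg
  have h1 := hW (Finset.range n) (fun j => wd (p + 10 * j)) (3 * cS k) (fun _ => sm_wd _)
    (fun j => wd_zero fun h => by linarith [h.1, j0 j]) (fun ε hε => bd_sum
      (O := fun j => Icc (p + 10 * j - 5) (p + 10 * j + 4)) (fun _ => isClosed_Icc)
      (fun i j t hi hj => by
        have a1 : (i : ℝ) < j + 1 := by linarith [hi.1, hj.2]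
        have a2 : (j : ℝ) < i + 1 := by linarith [hi.2, hj.1]
        have a3 : i < j + 1 := by exact_mod_cast a1
        have a4 : j < i + 1 := by exact_mod_cast a2
        omega) hε (by positivity) k (fun _ => sm_wd _) (fun _ => bd_wd k _) fun _ _ => wd_zero) v
  obtain ⟨j, hj, h2⟩ := Finset.exists_le_of_sum_le (s := Finset.range n)
    (f := fun j : ℕ => ‖mE (wd (p + 10 * j)) v‖ ^ 2) (g := fun _ => K * (3 * cS k) ^ 2 * ‖v‖ ^ 2 / n)
    (Finset.nonempty_range_iff.2 (by exact_mod_cast n0.ne')) (h1.trans_eq (by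
      rw [Finset.sum_const, Finset.card_range, nsmul_eq_mul]; field_simp))
  have j1 : (j : ℝ) < n := by exact_mod_cast Finset.mem_range.1 hj
  refine ⟨p + 10 * j, ⟨by linarith [j0 j], by linarith⟩, (key _ (by linarith [j0 j]) v).trans ?_⟩
  refine abs_le_of_sq_le_sq' ?_ (by positivity) |>.2
  rw [div_lt_iff₀ (by positivity)] at hn
  rw [le_div_iff₀ n0] at h2
  refine le_of_mul_le_mul_right ?_ n0
  nlinarith [mul_le_mul_of_nonneg_left h2 (sq_nonneg A),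
    mul_le_mul_of_nonneg_right hn.le (sq_nonneg ‖v‖)]

end Crest.Agent.X212.Gls64
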