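import Crest.Agent.X212.Gls64.Core
import Crest.Agent.X212.Gr93.Row
import Crest.Agent.X212.Sw21.Fac
import Crest.Agent.X212.Gl67.Abs

/-!
# Row 212, GL-CF (helper64): from the chart to the conclusions
-/

set_option autoImplicit false
set_option linter.unusedSectionVars false
noncomputable section
open scoped Manifold ContDiff Topology InnerProductSpace
open MeasureTheory Set Function Filter

namespace Crest.Agent.X212.Gls64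
open An Cyf70 Prm93 Sw Sob92
open M (Mf)
open Mod61 (Hs)
open Neck67 (dn cS)

theorem Cht.mono {C Y E F : Type} [NormedAddCommGroup C] [NormedSpace ℝ C] [NormedAddCommGroup Y]
    [NormedSpace ℝ Y] [NormedAddCommGroup E] [NormedSpace ℝ E] [NormedAddCommGroup F]
    [NormedSpace ℝ F] {P : C →L[ℝ] E} {P' : Y →L[ℝ] F} {H : C → Y} {K r r' : ℝ}
    (h : Cht P P' H K r) (h0 : 0 ≤ r) (hr : r' ≤ r) : Cht P P' H K r' :=
  ⟨h.inv, fun f hf => by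
    obtain ⟨u, h1, rfl⟩ := h.ex f (hf.trans hr)
    have := h.low 0 u (by simpa using h0) h1
    rw [zero_sub, map_neg, norm_neg] at this
    exact ⟨u, this.trans hf, rfl⟩, fun u u' a b => h.low u u' (a.trans hr) (b.trans hr),
    fun u a => h.lip u (a.trans hr), fun u a => h.sur u (a.trans hr)⟩

variable {κ lam ν : Type} [Fintype κ] [Fintype lam] [Fintype ν] [DecidableEq ν]
  {d : Dt κ lam ν} {N : Type} [Fintype N] {ty : N → d.𝓔} {X X₁ X₂ : Mf 4}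
  {nc nr n₁ r₁ n₂ r₂ m : ℕ}
  {T T₁ T₂ : Type} [NormedAddCommGroup T] [NormedSpace ℝ T] [FiniteDimensional ℝ T]
  [NormedAddCommGroup T₁] [NormedSpace ℝ T₁] [FiniteDimensional ℝ T₁]
  [NormedAddCommGroup T₂] [NormedSpace ℝ T₂] [FiniteDimensional ℝ T₂]
  {s : Pz X 0 fun i => d.e (ty i)} {s₁ : Pz X₁ 0 fun i => d.e (ty i)}
  {s₂ : Pz X₂ 0 fun i => d.e (ty i)} {σ : Cel s nc nr T} {σ₁ : Cel s₁ n₁ r₁ T₁}
  {σ₂ : Cel s₂ n₂ r₂ T₂} {k : ℕ} {S : Sp X X₁ X₂ nc n₁ n₂ T T₁ T₂}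

section one
variable (h : σ.OK) (hk : 7 ≤ k)
include h hk

theorem row' : Row σ k (gm σ k) := row_gm (Gr93.row d ty X nc nr T) h hk

theorem val_gr (c : σ.Pnt) {v : σ.C k} (hv : v ∈ σ.U k) :
    s.bg.F.val k _ (gr σ k (σ.pt k c) v) = σ.gro v.2.2 c.1.2
      (s.bg.F.val _ _ (v - σ.pt k c).1) (s.bg.F.val _ _ (v - σ.pt k c).2.1) := by
  rw [gr, (row' h hk).2 ((σ.pt k c).1, (σ.pt k c).2.1, v.2.2) hv]
  simp only [Pb50.val_Φ h.toOK (cr_of h) (by omega : 3 ≤ k), add_sub_cancel]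
  rfl

theorem val_gR (c y : σ.Pnt) : s.bg.F.val k _ (gr σ k (σ.pt k c) (σ.pt k y)) = gR σ c y := by
  have k3 : 3 ≤ k := by omega
  rw [val_gr h hk c y.2.1, Prod.fst_sub, Prod.snd_sub, Prod.fst_sub, val_sub, val_sub,
    Pb50.val_Φ h.toOK (cr_of h) k3, Pb50.val_Φ h.toOK (cr_of h) k3,
    Pb50.val_a h.toOK (cr_of h) k3, Pb50.val_a h.toOK (cr_of h) k3, sub_sub_sub_cancel_right]
  exact congrArg (fun α => σ.gro y.1.1 c.1.2 α _) (funext fun x => sub_sub_sub_cancel_right _ _ _)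

omit hk in
theorem gR_hs (c y : σ.Pnt) : gR σ c y ∈ Hs s.bg.F.toPre (triv X.M ℝ) := fun j hj =>
  ⟨_, (val_incl (Sup.of_tame h.site.bg.tame.choose_spec) hj (Nat.le_add_right j 7) _).trans
    (val_gR h (Nat.le_add_left 7 j) c y)⟩

omit h in
theorem rr_pt {g : T → Cfg X.M κ ν → ℝ} (hg : σ.Fn g) (y : σ.Pnt) :
    σ.rr k g (σ.pt k y) = g y.1.1 y.1.2 :=
  let ⟨_, a⟩ := hg.1 k hk; (Sw21.repR_rr a).2 y

omit h in
theorem rv_pt {ρ : T → Cfg X.M κ ν → Fin m → ℝ} (hρ : ∀ j, σ.Fn fun t c => ρ t c j) (y : σ.Pnt) :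
    rv σ k ρ (σ.pt k y) = ρ y.1.1 y.1.2 := funext fun j => rr_pt hk (hρ j) y

omit h hk in
theorem eqv_iff (Γ : σ.GD k) (n : ℤ) (he : Equivalence σ.Eqv) {x y : (σ.prob Γ n).X} :
    (σ.prob Γ n).eqv x y ↔ σ.Eqv x.2 y.2 :=
  Equivalence.eqvGen_iff (r := fun x y : (σ.prob Γ n).X => σ.Eqv x.2 y.2)
    ⟨fun _ => he.refl _, he.symm, he.trans⟩

omit h in
theorem invF (Γ : σ.GD k) (n : ℤ) (he : Equivalence σ.Eqv) {f : T → Cfg X.M κ ν → ℝ}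
    (hf : σ.Fn f) : InvF (σ.prob Γ n) fun _ => σ.rr k f := by
  obtain ⟨_, a⟩ := hf.1 k hk
  have a := Sw21.repR_rr a
  have b : ∀ y y', σ.Eqv y y' → σ.rr k f (σ.pt k y') = σ.rr k f (σ.pt k y) := fun y y' e =>
    (a.2 y').trans ((hf.2 y y' e.1 e.2).trans (a.2 y).symm)
  exact ⟨fun _ => a.1.of_le (by simp), fun _ => Γ.inv _ a.1.continuousOn b,
    fun x y _ e => (b _ _ ((eqv_iff Γ n he).1 e)).symm⟩

end one

theorem pt_co {δ : ℝ × ℝ} {c y : σ.Pnt} {t t' : T₁ × T₂} (hc : c.1.1 = S.θ δ t)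
    (hy : y.1.1 = S.θ δ t') : σ.pt k c + lA σ k (S.θ δ) (co σ k c y (t' - t)) = σ.pt k y :=
  Prod.ext (add_sub_cancel _ _) (Prod.ext (add_sub_cancel _ _) ((par_lA hc _).trans (by
    change S.θ δ (t + (t' - t)) = y.1.1
    rw [add_sub_cancel, hy])))

theorem co_of {θ : T₁ × T₂ →ᴬ[ℝ] T} {c y : σ.Pnt} {u : Cx T₁ T₂ σ k}
    (h : σ.pt k y = σ.pt k c + lA σ k θ u) : co σ k c y u.2.2 = u := by
  rw [co, h, add_sub_cancel_left]; rfl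

variable (S) in
/-- the facts about one chart -/
structure Gd (δ : ℝ × ℝ) (q : d.W →₀ ℝ) (ρ : T → Cfg X.M κ ν → Fin m → ℝ)
    (f : T → Cfg X.M κ ν → ℝ) (τ : ℝ) (c : σ.Pnt) (x : σ₁.Pnt) (z : σ₂.Pnt)
    (P : Cx T₁ T₂ σ k →L[ℝ] E0 σ₁ σ₂ k) (P' : Z σ k m →L[ℝ] F0 σ₁ σ₂ k) (K r : ℝ) : Prop where
  ch : Cht P P' (Hf σ k (S.θ δ) q ρ c) K r
  ct : c.1.1 = S.θ δ (x.1.1, z.1.1)
  dom : ∀ u, ‖P u‖ ≤ r → x.1.1 + u.2.2.1 ∈ σ₁.Q ∧ z.1.1 + u.2.2.2 ∈ σ₂.Q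
  mem : ∀ t₁ ∈ σ₁.Q, ∀ t₂ ∈ σ₂.Q, S.θ δ (t₁, t₂) ∈ σ.Q
  irr : ∀ (y : σ.Pnt) u, ‖P u‖ ≤ r → σ.pt k y = σ.pt k c + lA σ k (S.θ δ) u → ∃ p, y.1.2.Φ p ≠ 0
  lev : ∀ y : σ.Pnt, ∀ t₁ ∈ σ₁.Q, ∀ t₂ ∈ σ₂.Q, y.1.1 = S.θ δ (t₁, t₂) →
    (ρ y.1.1 y.1.2 = 0 ↔ f y.1.1 y.1.2 = τ)
  trv : ∀ y : σ.Pnt, ∀ t₁ ∈ σ₁.Q, ∀ t₂ ∈ σ₂.Q, y.1.1 = S.θ δ (t₁, t₂) →
    S.Onto σ k q δ ρ y → Trv σ k q f y

namespace Gd
variable {δ : ℝ × ℝ} {q : d.W →₀ ℝ} {ρ : T → Cfg X.M κ ν → Fin m → ℝ} {f : T → Cfg X.M κ ν → ℝ}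
  {τ : ℝ} {c : σ.Pnt} {x : σ₁.Pnt} {z : σ₂.Pnt} {P : Cx T₁ T₂ σ k →L[ℝ] E0 σ₁ σ₂ k}
  {P' : Z σ k m →L[ℝ] F0 σ₁ σ₂ k} {K r : ℝ} (g : Gd S δ q ρ f τ c x z P P' K r)
  {u u' : Cx T₁ T₂ σ k} {y y' : σ.Pnt}
include g

theorem par (e : σ.pt k y = σ.pt k c + lA σ k (S.θ δ) u) :
    y.1.1 = S.θ δ (x.1.1 + u.2.2.1, z.1.1 + u.2.2.2) :=
  (congrArg (·.2.2) e).trans (par_lA g.ct u)

theorem mem_U (hu : ‖P u‖ ≤ r) : σ.pt k c + lA σ k (S.θ δ) u ∈ σ.U k := by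
  change (σ.pt k c + lA σ k (S.θ δ) u).2.2 ∈ σ.Q
  rw [par_lA g.ct]
  exact g.mem _ (g.dom u hu).1 _ (g.dom u hu).2

variable (h : σ.OK) (hk : 7 ≤ k) (hρ : ∀ j, σ.Fn fun t c => ρ t c j)
include h hk hρ

theorem onto (hFr : FrStmt d ty X nc nr T T₁ T₂) (hu : ‖P u‖ ≤ r)
    (e : σ.pt k y = σ.pt k c + lA σ k (S.θ δ) u) : S.Onto σ k q δ ρ y := fun a b => by
  obtain ⟨w, hw⟩ := g.ch.sur u hu (a, 0, b)
  obtain ⟨h1, h2⟩ := ((hFr s σ h k hk (S.θ δ) q m ρ c hρ).1 u (g.mem_U hu)).2 w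
  rw [hw, ← e] at h1 h2
  exact ⟨_, ⟨w.2.2, rfl⟩, h1.symm, fun j => (h2 j).symm⟩

variable (hR : RepStmt d ty X nc nr T)
include hR

theorem boot (hB : BootStmt d ty X nc nr T) (hu : ‖P u‖ ≤ r)
    (h1 : (Hf σ k (S.θ δ) q ρ c u).1 = 0)
    (h2 : s.bg.F.val k _ (Hf σ k (S.θ δ) q ρ c u).2.1 ∈ Hs s.bg.F.toPre (triv X.M ℝ)) :
    ∃ y, σ.pt k y = σ.pt k c + lA σ k (S.θ δ) u ∧ σ.Sol q y := by
  obtain ⟨y, e⟩ := hB s σ h k hk q c _ (g.mem_U hu) h1 (val_gr h hk c (g.mem_U hu) ▸ h2)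
  exact ⟨y, e, ((hR s σ h k hk).2.2.1 q y).2 ⟨g.irr y u hu e, e ▸ h1⟩⟩

omit g in
theorem hf_eq (e : σ.pt k y = σ.pt k c + lA σ k (S.θ δ) u) (hy : σ.Sol q y) :
    Hf σ k (S.θ δ) q ρ c u = (0, gr σ k (σ.pt k c) (σ.pt k y), ρ y.1.1 y.1.2) := by
  rw [Hf, ← e, Φ, (((hR s σ h k hk).2.2.1 q y).1 hy).2, rv_pt hk hρ]

theorem uniq (hB : BootStmt d ty X nc nr T) (hA : AxStmt d ty X nc nr T)
    (hFr : FrStmt d ty X nc nr T T₁ T₂) (hI : σ.Ind 1) (hf : σ.Fn f) (hK : 0 < K)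
    (hu : ‖P u‖ ≤ r) (hu' : ‖P u'‖ ≤ r) (a : K * (K * ‖P u‖) ≤ r) (a' : K * (K * ‖P u'‖) ≤ r)
    (e : σ.pt k y = σ.pt k c + lA σ k (S.θ δ) u) (e' : σ.pt k y' = σ.pt k c + lA σ k (S.θ δ) u')
    (hy : σ.Sol q y) (hy' : σ.Sol q y') (l : ρ y.1.1 y.1.2 = 0) (l' : ρ y'.1.1 y'.1.2 = 0) :
    σ.Eqv y y' := by
  obtain ⟨Γ, hΓ, he⟩ := hA s σ h 1 hI k hk
  set H := Hf σ k (S.θ δ) q ρ c with hH
  let p := AffineMap.lineMap (k := ℝ) (H u) (H u')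
  have b := hf_eq h hk hρ hR e hy
  have b' := hf_eq h hk hρ hR e' hy'
  have key : ∀ t : Icc (0 : ℝ) 1, ∃ v, ‖P v‖ ≤ r ∧ H v = p t.1 ∧ ∃ y, σ.pt k y =
      σ.pt k c + lA σ k (S.θ δ) v ∧ σ.Sol q y ∧ f y.1.1 y.1.2 = τ := fun t => by
    have m : ∀ v, ‖P v‖ ≤ r → K * (K * ‖P v‖) ≤ r →
        H v ∈ P' ⁻¹' Metric.closedBall (P' (H 0)) (r / K) := fun v hv hs => by
      rw [mem_preimage, mem_closedBall_iff_norm, ← map_sub, le_div_iff₀' hK]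
      exact (mul_le_mul_of_nonneg_left (g.ch.lip v hv) hK.le).trans hs
    have h1 := ((convex_closedBall (P' (H 0)) (r / K)).linear_preimage
      P'.toLinearMap).lineMap_mem (m u hu a) (m u' hu' a') t.2
    change P' (p t.1) ∈ Metric.closedBall _ _ at h1
    rw [mem_closedBall_iff_norm', ← map_sub, le_div_iff₀' hK] at h1
    obtain ⟨v, hv, ev⟩ := g.ch.ex _ h1
    have pe : p t.1 = (0, (1 - t.1) • (H u).2.1 + t.1 • (H u').2.1, 0) := by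
      simp only [p, AffineMap.lineMap_apply_module, hH, b, b', l, l']
      simp
    obtain ⟨y, e1, e2⟩ := g.boot h hk hρ hR hB hv (by rw [ev, pe]) (by
      rw [ev, pe, val_add, val_smul, val_smul, hH, b, b', val_gR h hk, val_gR h hk]
      exact Submodule.add_mem _ (Submodule.smul_mem _ _ (gR_hs h _ _))
        (Submodule.smul_mem _ _ (gR_hs h _ _)))
    refine ⟨v, hv, ev, y, e1, e2, (g.lev y _ (g.dom v hv).1 _ (g.dom v hv).2 (g.par e1)).1 ?_⟩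
    have := (hf_eq h hk hρ hR e1 e2).symm.trans (ev.trans pe)
    exact congrArg (·.2.2) this
  choose v hv ev ys e1 e2 e3 using key
  obtain ⟨B, hB'⟩ := g.ch.inv
  have cv : Continuous v := continuous_iff_continuousAt.2 fun t₀ => by
    rw [ContinuousAt, tendsto_iff_norm_sub_tendsto_zero]
    have : Continuous fun t : Icc (0 : ℝ) 1 => |B| * (K * ‖P' (p t.1 - p t₀.1)‖) :=
      continuous_const.mul (continuous_const.mul (P'.continuous.comp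
        ((AffineMap.lineMap_continuous.comp continuous_subtype_val).sub continuous_const)).norm)
    refine squeeze_zero (fun _ => norm_nonneg _) (fun t => ?_) (this.tendsto' t₀ 0 (by simp))
    rw [← ev, ← ev]
    exact (hB' _).trans (mul_le_mul (le_abs_self B) (g.ch.low _ _ (hv t) (hv t₀)) (norm_nonneg _)
      (abs_nonneg B))
  have cΘ : Continuous fun t => σ.pt k (ys t) := by simp only [e1]; fun_prop
  have sol : ∀ t, (σ.prob Γ 1).Sol q ⟨(), ys t⟩ := fun t => ((hR s σ h k hk).2.2.1 q _).1 (e2 t)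
  have lc : IsLocallyConstant fun t => Quotient.mk ⟨_, he⟩ (ys t) :=
    (IsLocallyConstant.iff_eventually_eq _).2 fun t₀ => by
      filter_upwards [(cΘ.tendsto t₀).eventually (Gl67.isol hΓ (invF hk Γ 1 he hf) rfl trivial
        (sol t₀) (g.trv _ _ (g.dom _ (hv t₀)).1 _ (g.dom _ (hv t₀)).2 (g.par (e1 t₀))
          (g.onto h hk hρ hFr (hv t₀) (e1 t₀))))] with t ht
      exact Quotient.sound ((eqv_iff Γ 1 he).1 (ht _ rfl (sol t)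
        ((rr_pt hk hf _).trans ((e3 t).trans ((e3 t₀).symm.trans (rr_pt hk hf _).symm)))))
  have en : ∀ (t : Icc (0 : ℝ) 1) {w} {y : σ.Pnt}, ‖P w‖ ≤ r → p t.1 = H w →
      σ.pt k y = σ.pt k c + lA σ k (S.θ δ) w → ys t = y := fun t w y b e3 e4 => by
    have a1 := g.ch.low _ _ (hv t) b
    rw [← hH, ev, e3, sub_self, map_zero, norm_zero, mul_zero] at a1
    have a2 := hB' (v t - w)
    rw [le_antisymm a1 (norm_nonneg _), mul_zero, norm_le_zero_iff, sub_eq_zero] at a2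
    exact Pb50.pt_inj h.toOK (cr_of h) (by omega : 3 ≤ k) (by rw [e1, e4, a2])
  rw [← en ⟨0, by simp⟩ hu (by simp [p]) e, ← en ⟨1, by simp⟩ hu' (by simp [p]) e']
  exact Quotient.exact (lc.apply_eq_of_preconnectedSpace _ _)

end Gd

theorem TrE.lift {δ : ℝ × ℝ} {c y : σ.Pnt} {x : σ₁.Pnt} {z : σ₂.Pnt}
    {P : Cx T₁ T₂ σ k →L[ℝ] E0 σ₁ σ₂ k} {Q : E0 σ₁ σ₂ k →L[ℝ] Cx T₁ T₂ σ k} {C : ℝ}
    (h : TrE S δ c x z P Q C) (ct : c.1.1 = S.θ δ (x.1.1, z.1.1)) {u : Cx T₁ T₂ σ k}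
    (h1 : x.1.1 + u.2.2.1 ∈ σ₁.Q) (h2 : z.1.1 + u.2.2.2 ∈ σ₂.Q)
    (e : σ.pt k y = σ.pt k c + lA σ k (S.θ δ) u) : ∃ y₁ y₂,
    (σ₁.pt k y₁, σ₂.pt k y₂) = (σ₁.pt k x, σ₂.pt k z) + P u ∧
      S.Agr δ (3 * S.Λ δ + 1) y y₁ y₂ := by
  have := h.sm y _ h1 _ h2 ((congrArg (·.2.2) e).trans (par_lA ct u))
  rwa [add_sub_cancel_left, add_sub_cancel_left, co_of e] at this

variable {x : σ₁.Pnt} {z : σ₂.Pnt} {xx : ℝ × ℝ → σ₁.Pnt} {zz : ℝ × ℝ → σ₂.Pnt}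
  {cc : ℝ × ℝ → σ.Pnt} {ι : Type} {l : Filter ι} {δ : ι → ℝ × ℝ}
  {P : ι → Cx T₁ T₂ σ k →L[ℝ] E0 σ₁ σ₂ k} {Q : ι → E0 σ₁ σ₂ k →L[ℝ] Cx T₁ T₂ σ k} {C : ℝ}

theorem tendsto_base (hG : S.Geo σ σ₁ σ₂) (hP : S.Pre x z xx zz cc) (hk : 3 ≤ k)
    (hδ : Tendsto δ l S.lg) : Tendsto (fun i => ((σ₁.pt k (xx (δ i)), σ₂.pt k (zz (δ i))) :
      E0 σ₁ σ₂ k)) l (𝓝 (σ₁.pt k x, σ₂.pt k z)) :=
  (tendsto_pt hG.ok₁ hk ((hP.cx _).comp hδ)).prodMk_nhds (tendsto_pt hG.ok₂ hk ((hP.cz _).comp hδ))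

/-- convergent sequences are small in the chart -/
theorem small (hCp : CpStmt d ty X X₁ X₂ nc nr n₁ r₁ n₂ r₂ T T₁ T₂) (hG : S.Geo σ σ₁ σ₂)
    (hP : S.Pre x z xx zz cc) (hk : 7 ≤ k) (hδ : Tendsto δ l S.lg)
    (hT : ∀ᶠ i in l, TrE S (δ i) (cc (δ i)) (xx (δ i)) (zz (δ i)) (P i) (Q i) C)
    {y : ι → σ.Pnt} {t₁ : ι → T₁} {t₂ : ι → T₂} (hy : S.Nr (k + 1) l δ y t₁ t₂ x z) :
    ∃ u : ι → Cx T₁ T₂ σ k, Tendsto (fun i => ‖P i (u i)‖) l (𝓝 0) ∧ ∀ᶠ i in l,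
      σ.pt k (y i) = σ.pt k (cc (δ i)) + lA σ k (S.θ (δ i)) (u i) ∧
      (u i).2.2 = (t₁ i - x.1.1, t₂ i - z.1.1) := by
  have k3 : 3 ≤ k := by omega
  obtain ⟨y₁, y₂, a1, a2, a3⟩ := hCp s s₁ s₂ σ σ₁ σ₂ S hG x z xx zz cc hP (k + 1) (by omega) ι l δ
    y t₁ t₂ hδ hy
  obtain ⟨g₁, g₂⟩ := hG.hg
  obtain ⟨C₃, c3, mE', -⟩ := isM_two σ₁ σ₂ k g₁ g₂
  have b0 := (((tendsto_pt hG.ok₁ k3 a1).prodMk_nhds (tendsto_pt hG.ok₂ k3 a2)).sub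
    (tendsto_base hG hP k3 hδ)).norm.const_mul (|C| * (C₃ * cS (k + 1)))
  rw [sub_self, norm_zero, mul_zero] at b0
  refine ⟨fun i => co σ k (cc (δ i)) (y i) (t₁ i - x.1.1, t₂ i - z.1.1),
    squeeze_zero' (.of_forall fun _ => norm_nonneg _) ?_ b0, ?_⟩
  · filter_upwards [hT, a3, hδ.eventually hP.ag, hy.t, (Sp.len hδ).eventually_ge_atTop 0]
      with i t ⟨p1, p2, _, p3, p4⟩ ⟨q1, q2, _⟩ ht hΛ
    obtain ⟨w₁, w₂, e, _, e1, e2⟩ := t.sm (y i) _ (p1 ▸ (y₁ i).2.1) _ (p2 ▸ (y₂ i).2.1) ht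
    rw [q1, q2] at e
    set u := co σ k (cc (δ i)) (y i) (t₁ i - x.1.1, t₂ i - z.1.1)
    have pp := t.par u
    have lt : ∀ a, χ (S.Λ (δ i)) a ≠ 0 → a < 2 * S.Λ (δ i) + 1 / 2 := fun a ha =>
      lt_of_not_ge fun h => ha (χ_zero h)
    have k1 : mC σ₁ k S.g₁ (χ (S.Λ (δ i))) (σ₁.pt k w₁ - σ₁.pt k (y₁ i)) = 0 :=
      kill hG.ok₁.toOK g₁ (sm_χ _) (cr_of hG.ok₁) k3 (by
        have := congrArg (·.1.2.2) e
        change w₁.1.1 = (xx (δ i)).1.1 + (P i u).1.2.2 at this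
        rw [this, p1, q1, show (P i u).1.2.2 = t₁ i - x.1.1 from congrArg Prod.fst pp,
          add_sub_cancel]) fun p hp =>
        have a := e1 p ((lt _ hp).trans_le (by linarith))
        have b := p3 p ((lt _ hp).trans_le (by linarith))
        ⟨fun j => (a.1 j).symm.trans (b.1 j), a.2.symm.trans b.2⟩
    have k2 : mC σ₂ k S.g₂ (χ (S.Λ (δ i))) (σ₂.pt k w₂ - σ₂.pt k (y₂ i)) = 0 :=
      kill hG.ok₂.toOK g₂ (sm_χ _) (cr_of hG.ok₂) k3 (by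
        have := congrArg (·.2.2.2) e
        change w₂.1.1 = (zz (δ i)).1.1 + (P i u).2.2.2 at this
        rw [this, p2, q2, show (P i u).2.2.2 = t₂ i - z.1.1 from congrArg Prod.snd pp,
          add_sub_cancel]) fun p hp =>
        have a := e2 p ((lt _ hp).trans_le (by linarith))
        have b := p4 p ((lt _ hp).trans_le (by linarith))
        ⟨fun j => (a.1 j).symm.trans (b.1 j), a.2.symm.trans b.2⟩
    have k3 : mE σ₁ σ₂ k S.g₁ S.g₂ (χ (S.Λ (δ i))) (P i u) = mE σ₁ σ₂ k S.g₁ S.g₂ (χ (S.Λ (δ i)))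
        ((σ₁.pt k (y₁ i), σ₂.pt k (y₂ i)) - (σ₁.pt k (xx (δ i)), σ₂.pt k (zz (δ i)))) := by
      rw [← sub_eq_zero, ← map_sub, eq_sub_of_add_eq' e.symm, sub_sub_sub_cancel_right]
      exact Prod.ext k1 k2
    have a4 := (P i ∘L Q i).le_of_opNorm_le (t.bd.trans (le_abs_self C))
      (mE σ₁ σ₂ k S.g₁ S.g₂ (χ (S.Λ (δ i))) (P i u))
    rw [ContinuousLinearMap.comp_apply, t.inv, k3] at a4
    rw [mul_assoc]
    exact a4.trans (mul_le_mul_of_nonneg_left (mE'.bd (sm_χ _) (bd_χ _ _) _) (abs_nonneg C))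
  · filter_upwards [hδ.eventually hP.ag, hy.t] with i ⟨q1, q2, q3, _⟩ ht
    rw [q1, q2] at q3
    exact ⟨(pt_co q3 ht).symm, rfl⟩

/-- the charts are good -/
theorem exists_gd (hG : S.Geo σ σ₁ σ₂) (hP : S.Pre x z xx zz cc) (hk : 7 ≤ k)
    (hx : ∃ p, x.1.2.Φ p ≠ 0) {R : Rw κ ν X X₁ nr r₁ r₂ m T T₁} {f : T → Cfg X.M κ ν → ℝ}
    (hR : R.OK S σ x z f) {τ : ι → ℝ} {q : ι → d.W →₀ ℝ} (hS : R.Sq S l δ τ)
    {P' : ι → Z σ k m →L[ℝ] F0 σ₁ σ₂ k} {K r : ℝ} (hr : 0 < r)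
    (hT : ∀ᶠ i in l, TrE S (δ i) (cc (δ i)) (xx (δ i)) (zz (δ i)) (P i) (Q i) C ∧
      Cht (P i) (P' i) (Hf σ k (S.θ (δ i)) (q i) (R.ρ (τ i)) (cc (δ i))) K r) :
    ∃ r' > 0, ∀ᶠ i in l, Gd S (δ i) (q i) (R.ρ (τ i)) f (τ i) (cc (δ i)) (xx (δ i)) (zz (δ i))
      (P i) (P' i) K r' := by
  have k3 : 3 ≤ k := by omega
  obtain ⟨p, hp⟩ := hx
  obtain ⟨ρ₂, ρ2, hd⟩ := exists_dom (k := k) hG x z
  have hS' := Sup.of_tame hG.ok₁.site.bg.tame.choose_spec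
  have h1 : ∀ᶠ v : E0 σ₁ σ₂ k × E0 σ₁ σ₂ k in 𝓝 ((σ₁.pt k x, σ₂.pt k z), 0),
      s₁.bg.F.val _ _ (v.1 + v.2).1.2.1 p + (s₁.base σ₁.β).Φ p ≠ 0 :=
    ContinuousAt.eventually_ne (by fun_prop) (by
      simpa [Pb50.val_Φ hG.ok₁.toOK (cr_of hG.ok₁) k3] using hp)
  rw [nhds_prod_eq, eventually_prod_iff] at h1
  obtain ⟨pa, h2, pb, h3, h4⟩ := h1
  obtain ⟨ρ₃, ρ3, h3⟩ := Metric.nhds_basis_closedBall.eventually_iff.1 h3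
  obtain ⟨a, -, -, hM⟩ := (hG.mt ∅).exists
  refine ⟨min r (min ρ₂ ρ₃), lt_min hr (lt_min ρ2 ρ3), ?_⟩
  filter_upwards [hT, hS.lg.eventually (hP.ag.and (hM.and (hR.lev.and (hR.trv k hk)))), hS.A,
    (tendsto_base hG hP k3 hS.lg).eventually h2, (Sp.len hS.lg).eventually_ge_atTop |S.g₁ p|]
    with i ⟨t, c⟩ ⟨⟨q1, q2, q3, _⟩, e1, e2, e3⟩ hA e4 hΛ
  have dom : ∀ u, ‖P i u‖ ≤ min r (min ρ₂ ρ₃) →
      (xx (δ i)).1.1 + u.2.2.1 ∈ σ₁.Q ∧ (zz (δ i)).1.1 + u.2.2.2 ∈ σ₂.Q := fun u hu => by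
    rw [q1, q2, ← t.par u]
    exact hd _ (hu.trans ((min_le_right _ _).trans (min_le_left _ _)))
  refine ⟨c.mono hr.le (min_le_left _ _), q3, dom, fun t₁ h₁ t₂ h₂ => (e1 t₁ h₁ t₂ h₂).1,
    fun y u hu e => ?_, e2 _ hA, e3 _ hA _⟩
  obtain ⟨w₁, w₂, b1, -, b2, -⟩ := t.lift q3 (dom u hu).1 (dom u hu).2 e
  have b3 := h4 e4 (h3 (mem_closedBall_zero_iff.2
    (hu.trans ((min_le_right _ _).trans (min_le_right _ _)))))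
  simp only [← b1, Pb50.val_Φ hG.ok₁.toOK (cr_of hG.ok₁) k3, Pi.sub_apply, sub_add_cancel] at b3
  have b4 : S.g₁ p < 3 * S.Λ (δ i) + 1 := by
    linarith [abs_nonneg (S.g₁ p), le_abs_self (S.g₁ p)]
  exact ⟨_, fun h => b3 ((b2 p b4).2.symm.trans h)⟩

/-- **GL-CF** -/
theorem cfStmt (hB : BootStmt d ty X nc nr T) (hRp : RepStmt d ty X nc nr T)
    (hA : AxStmt d ty X nc nr T) (hFr : FrStmt d ty X nc nr T T₁ T₂)
    (hCp : CpStmt d ty X X₁ X₂ nc nr n₁ r₁ n₂ r₂ T T₁ T₂)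
    (hNr : NrStmt d ty X X₁ X₂ nc nr n₁ r₁ n₂ r₂ T T₁ T₂) :
    CfStmt d ty X X₁ X₂ nc nr n₁ r₁ n₂ r₂ T T₁ T₂ := by
  intro s s₁ s₂ σ σ₁ σ₂ S x z xx zz cc hG hP hI hx m R f hR k hk ι l δ τ q hS P Q P' C K r hK hr
    hT h0
  have k3 : 3 ≤ k := by omega
  have h := hG.ok
  obtain ⟨r', r0, hg⟩ := exists_gd hG hP hk hx hR hS hr hT
  have hT' := hT.mono fun _ h => h.1
  have zero : ∀ {i} {y : σ.Pnt} {u}, σ.pt k y = σ.pt k (cc (δ i)) + lA σ k (S.θ (δ i)) u →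
      σ.Sol (q i) y → R.ρ (τ i) y.1.1 y.1.2 = 0 → gR σ (cc (δ i)) y = 0 →
      Hf σ k (S.θ (δ i)) (q i) (R.ρ (τ i)) (cc (δ i)) u = 0 := fun e a b c => by
    rw [Gd.hf_eq h hk (hR.fρ _) hRp e a, b, val_injective
      (Sup.of_tame h.site.bg.tame.choose_spec) (by omega) ((val_gR h hk _ _).trans
        (c.trans val_zero.symm))]
    rfl
  refine ⟨fun _ => ?_, fun y t₁ t₂ y' t₁' t₂' hy hy' => ?_, fun y t₁ t₂ hy => ?_,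
    fun y t₁ t₂ y' t₁' t₂' hy hy' => ?_⟩
  · have h1 := h0.norm.const_mul K
    rw [norm_zero, mul_zero] at h1
    have : Nonempty σ.Pnt := ⟨cc 0⟩
    have : Nonempty σ₁.Pnt := ⟨x⟩
    have : Nonempty σ₂.Pnt := ⟨z⟩
    have h2 : ∀ᶠ i in l, ∃ (y : σ.Pnt) (y₁ : σ₁.Pnt) (y₂ : σ₂.Pnt),
        ‖((σ₁.pt k y₁, σ₂.pt k y₂) - (σ₁.pt k (xx (δ i)), σ₂.pt k (zz (δ i))) : E0 σ₁ σ₂ k)‖ ≤
          K * ‖P' i (Hf σ k (S.θ (δ i)) (q i) (R.ρ (τ i)) (cc (δ i)) 0)‖ ∧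
        S.Agr (δ i) (3 * S.Λ (δ i) + 1) y y₁ y₂ ∧ σ.Sol (q i) y ∧
        R.ρ (τ i) y.1.1 y.1.2 = 0 ∧ gR σ (cc (δ i)) y = 0 := by
      filter_upwards [hg, hT', h1.eventually_le_const r0] with i g t e
      obtain ⟨u, a1, a2⟩ := g.ch.ex 0 (by rwa [sub_zero])
      have a3 := g.ch.low 0 u (by simpa using r0.le) a1
      rw [zero_sub, map_neg, norm_neg, a2, sub_zero] at a3
      obtain ⟨y, a4, a5⟩ := g.boot h hk (hR.fρ _) hRp hB a1 (by rw [a2]; rfl)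
        (by rw [a2, Prod.snd_zero, Prod.fst_zero, val_zero]; exact Submodule.zero_mem _)
      obtain ⟨y₁, y₂, a6, a7⟩ := t.lift g.ct (g.dom u a1).1 (g.dom u a1).2 a4
      have a8 := (Gd.hf_eq h hk (hR.fρ _) hRp a4 a5).symm.trans a2
      exact ⟨y, y₁, y₂, by rwa [a6, add_sub_cancel_left], a7, a5, congrArg (·.2.2) a8, by
        rw [← val_gR h hk, show gr σ k _ _ = 0 from congrArg (·.2.1) a8, val_zero]⟩
    choose! y y₁ y₂ h3 using fun i (h : ∃ (y : σ.Pnt) (y₁ : σ₁.Pnt) (y₂ : σ₂.Pnt),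
        ‖((σ₁.pt k y₁, σ₂.pt k y₂) - (σ₁.pt k (xx (δ i)), σ₂.pt k (zz (δ i))) : E0 σ₁ σ₂ k)‖ ≤
          K * ‖P' i (Hf σ k (S.θ (δ i)) (q i) (R.ρ (τ i)) (cc (δ i)) 0)‖ ∧
        S.Agr (δ i) (3 * S.Λ (δ i) + 1) y y₁ y₂ ∧ σ.Sol (q i) y ∧
        R.ρ (τ i) y.1.1 y.1.2 = 0 ∧ gR σ (cc (δ i)) y = 0) => h
    have h3 := h2.mono h3
    have h4 := (squeeze_zero_norm' (h3.mono fun _ h => h.1) h1).add (tendsto_base hG hP k3 hS.lg)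
    simp only [sub_add_cancel, zero_add] at h4
    have h5 := (tendsto_iff_norm_sub_tendsto_zero.1 h4).const_mul 3
    rw [mul_zero] at h5
    have n : ∀ {X : Mf 4} {nc nr : ℕ} {T : Type} [NormedAddCommGroup T]
        {s : Pz X 0 fun i => d.e (ty i)} {σ : Cel s nc nr T} (y y' : σ.Pnt),
        0 ≤ σ.dk (k + 1) y y' := fun _ _ =>
      add_nonneg (add_nonneg (nrm_nonneg _ _) (nrm_nonneg _ _)) (norm_nonneg _)
    refine ⟨y, _, _, hNr s s₁ s₂ σ σ₁ σ₂ S x z xx zz cc hG hP (k + 1) ι l δ y y₁ y₂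
      (squeeze_zero (fun _ => n _ _) (fun i => (Pb50.dk_le_norm hG.ok₁.toOK (cr_of hG.ok₁) k3 _
        _).trans (mul_le_mul_of_nonneg_left (le_max_left _ _) (by norm_num))) h5)
      (squeeze_zero (fun _ => n _ _) (fun i => (Pb50.dk_le_norm hG.ok₂.toOK (cr_of hG.ok₂) k3 _
        _).trans (mul_le_mul_of_nonneg_left (le_max_right _ _) (by norm_num))) h5)
      ?_, h3.mono fun _ h => h.2.2⟩
    filter_upwards [h3, (Sp.len hS.lg).eventually_gt_atTop 0] with i a b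
    exact ⟨_, by linarith, a.2.1⟩
  · obtain ⟨u, a1, a2⟩ := small hCp hG hP hk hS.lg hT' hy
    obtain ⟨u', b1, b2⟩ := small hCp hG hP hk hS.lg hT' hy'
    filter_upwards [hg, a1.eventually_le_const r0, b1.eventually_le_const r0, a2, b2]
      with i g a3 b3 ⟨a4, a5⟩ ⟨b4, b5⟩ c1 c2 c3 c4 c5 c6
    have e1 := g.ch.low _ _ a3 b3
    rw [zero a4 c1 c2 c3, zero b4 c4 c5 c6, sub_self, map_zero, norm_zero, mul_zero] at e1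
    obtain ⟨B, hB'⟩ := g.ch.inv
    have e2 := hB' (u i - u' i)
    rw [le_antisymm e1 (norm_nonneg _), mul_zero, norm_le_zero_iff, sub_eq_zero] at e2
    rw [e2, b5] at a5
    exact ⟨Pb50.pt_inj h.toOK (cr_of h) k3 (by rw [a4, b4, e2]),
      (sub_left_injective (congrArg Prod.fst a5)).symm,
      (sub_left_injective (congrArg Prod.snd a5)).symm⟩
  · obtain ⟨u, a1, a2⟩ := small hCp hG hP hk hS.lg hT' hy
    filter_upwards [hg, a1.eventually_le_const r0, a2] with i g a3 a4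
    exact g.onto h hk (hR.fρ _) hFr a3 a4.1
  · obtain ⟨u, a1, a2⟩ := small hCp hG hP hk hS.lg hT' hy
    obtain ⟨u', b1, b2⟩ := small hCp hG hP hk hS.lg hT' hy'
    have a0 := (a1.const_mul K).const_mul K
    have b0 := (b1.const_mul K).const_mul K
    rw [mul_zero, mul_zero] at a0 b0
    filter_upwards [hg, a1.eventually_le_const r0, b1.eventually_le_const r0, a2, b2,
      a0.eventually_le_const r0, b0.eventually_le_const r0] with i g a3 b3 a4 b4 a5 b5 c1 c2 c3 c4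
    exact g.uniq h hk (hR.fρ _) hRp hB hA hFr hI hR.ff hK a3 b3 a5 b5 a4.1 b4.1 c1 c3 c2 c4

end Crest.Agent.X212.Gls64
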