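import Crest.Agent.X212.Gls64.Defs
import Crest.Agent.X212.Neck67.Bd
import Crest.Agent.X212.Sob92.Ops

/-!
# Row 212, GL-S (helper64): the gluing chart

`Hf` : the equations near the pre-glued point, `Sf` : the equations on the two faces, `TrE`, `TrF` :
the transfers between them, `Cht` : the uniform chart.  The leaves of `CoreStmt`.
-/

set_option autoImplicit false
set_option linter.unusedSectionVars false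
noncomputable section
open scoped Manifold ContDiff Topology InnerProductSpace
open MeasureTheory Set Function Filter

namespace Crest.Agent.X212.Gls64
open An Cyf70 Prm93 Sw Sob92
open M (Mf)
open Neck67 (dn)

variable {κ lam ν : Type} [Fintype κ] [Fintype lam] [Fintype ν] [DecidableEq ν]
  {d : Dt κ lam ν} {N : Type} [Fintype N] {ty : N → d.𝓔} {X X₁ X₂ : Mf 4}
  {nc nr n₁ r₁ n₂ r₂ m : ℕ}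
  {T T₁ T₂ : Type} [NormedAddCommGroup T] [NormedSpace ℝ T] [FiniteDimensional ℝ T]
  [NormedAddCommGroup T₁] [NormedSpace ℝ T₁] [FiniteDimensional ℝ T₁]
  [NormedAddCommGroup T₂] [NormedSpace ℝ T₂] [FiniteDimensional ℝ T₂]
  {s : Pz X 0 fun i => d.e (ty i)} {s₁ : Pz X₁ 0 fun i => d.e (ty i)}
  {s₂ : Pz X₂ 0 fun i => d.e (ty i)}

/-- a uniform chart for the norms `‖P u‖`, `‖P' f‖` -/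
structure Cht {C Y E F : Type} [NormedAddCommGroup C] [NormedSpace ℝ C] [NormedAddCommGroup Y]
    [NormedSpace ℝ Y] [NormedAddCommGroup E] [NormedSpace ℝ E] [NormedAddCommGroup F]
    [NormedSpace ℝ F] (P : C →L[ℝ] E) (P' : Y →L[ℝ] F) (H : C → Y) (K r : ℝ) : Prop where
  inv : ∃ B, ∀ u, ‖u‖ ≤ B * ‖P u‖
  ex : ∀ f, K * ‖P' (H 0 - f)‖ ≤ r → ∃ u, ‖P u‖ ≤ r ∧ H u = f
  low : ∀ u u', ‖P u‖ ≤ r → ‖P u'‖ ≤ r → ‖P (u - u')‖ ≤ K * ‖P' (H u - H u')‖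
  lip : ∀ u, ‖P u‖ ≤ r → ‖P' (H u - H 0)‖ ≤ K * ‖P u‖
  sur : ∀ u, ‖P u‖ ≤ r → Surjective (fderiv ℝ H u)

section one
variable (σ : Cel s nc nr T) (k : ℕ)

/-- gauge rows -/
abbrev Hr (_ : Cel s nc nr T) (k : ℕ) : Type := s.bg.F.H k (triv X.M ℝ)

/-- equations, gauge row, `m` further rows -/
abbrev Z (m : ℕ) : Type := σ.Y k × Hr σ k × (Fin m → ℝ)

/-- the conclusion of `RowStmt` -/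
def Row (Γ : σ.C k → σ.C k →L[ℝ] Hr σ k) : Prop := ContDiffOn ℝ ∞ Γ (σ.U k) ∧
  ∀ v₀ ∈ σ.U k, ∀ v, s.bg.F.val k _ (Γ v₀ v) = σ.gro v₀.2.2
    ⟨0, (s.base σ.β).Φ + s.bg.F.val _ _ v₀.2.1⟩ (s.bg.F.val _ _ v.1) (s.bg.F.val _ _ v.2.1)

open Classical in
/-- the gauge row operator -/
def gm : σ.C k → σ.C k →L[ℝ] Hr σ k := if h : ∃ Γ, Row σ k Γ then h.choose else 0

/-- the gauge row with the base point `b` -/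
def gr (b v : σ.C k) : Hr σ k := gm σ k (b.1, b.2.1, v.2.2) (v - b)

/-- further rows -/
def rv (μ : T → Cfg X.M κ ν → Fin m → ℝ) (v : σ.C k) : Fin m → ℝ :=
  fun j => σ.rr k (fun t c => μ t c j) v

/-- all equations -/
def Φ (q : d.W →₀ ℝ) (μ : T → Cfg X.M κ ν → Fin m → ℝ) (b v : σ.C k) : Z σ k m :=
  (σ.F k q v, gr σ k b v, rv σ k μ v)

/-- a value of the rows -/
def ro : (Fin nr → ℝ) →L[ℝ] σ.Y k :=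
  (0 : _ →L[ℝ] _).prod ((0 : _ →L[ℝ] _).prod ((0 : _ →L[ℝ] _).prod (.id ℝ _)))

variable (g : X.M → ℝ) (b : ℝ → ℝ)

/-- multiplication by `b ∘ g`; finite dimensional factors sit at the height `0` -/
def mC : σ.C k →L[ℝ] σ.C k := (smulH _ _ _ fun x => b (g x)).prodMap
  ((smulH _ _ _ fun x => b (g x)).prodMap (b 0 • .id ℝ T))

def mY : σ.Y k →L[ℝ] σ.Y k := (smulH _ _ _ fun x => b (g x)).prodMap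
  ((smulH _ _ _ fun x => b (g x)).prodMap (b 0 • .id ℝ _))

def mH : Hr σ k →L[ℝ] Hr σ k := smulH _ _ _ fun x => b (g x)

def mZ (m : ℕ) : Z σ k m →L[ℝ] Z σ k m :=
  (mY σ k g b).prodMap ((mH σ k g b).prodMap (b 0 • .id ℝ _))

variable (T₁ T₂) in
/-- the domain of the chart -/
abbrev Cx (_ : Cel s nc nr T) (k : ℕ) : Type :=
  s.bg.F.H (k + 1) s.bg.p1 × s.bg.F.H (k + 1) s.bg.pp × (T₁ × T₂)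

/-- the coordinates of `y` -/
def co (c y : σ.Pnt) (t : T₁ × T₂) : Cx T₁ T₂ σ k :=
  ((σ.pt k y - σ.pt k c).1, (σ.pt k y - σ.pt k c).2.1, t)

/-- the linear part of the chart -/
def lA (θ : T₁ × T₂ →ᴬ[ℝ] T) : Cx T₁ T₂ σ k →L[ℝ] σ.C k :=
  (ContinuousLinearMap.id ℝ _).prodMap ((ContinuousLinearMap.id ℝ _).prodMap θ.contLinear)

/-- the equations in the chart -/
def Hf (θ : T₁ × T₂ →ᴬ[ℝ] T) (q : d.W →₀ ℝ) (ρ : T → Cfg X.M κ ν → Fin m → ℝ) (c : σ.Pnt)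
    (u : Cx T₁ T₂ σ k) : Z σ k m := Φ σ k q ρ (σ.pt k c) (σ.pt k c + lA σ k θ u)

variable {σ k}

theorem row_gm (h : RowStmt d ty X nc nr T) (hσ : σ.OK) (hk : 7 ≤ k) : Row σ k (gm σ k) := by
  have : ∃ Γ, Row σ k Γ := h s σ hσ k hk
  rw [gm, dif_pos this]; exact this.choose_spec

end one

section two
variable (σ₁ : Cel s₁ n₁ r₁ T₁) (σ₂ : Cel s₂ n₂ r₂ T₂) (k : ℕ)

abbrev E0 : Type := σ₁.C k × σ₂.C k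

abbrev F0 : Type := (σ₁.Y k × Hr σ₁ k) × (σ₂.Y k × Hr σ₂ k)

/-- the rows `μ` of the first face are added to the rows of the second one -/
def mx : Z σ₁ k r₂ × Z σ₂ k 0 →L[ℝ] F0 σ₁ σ₂ k :=
  (((ContinuousLinearMap.fst ℝ _ _).prod (.fst ℝ _ _ ∘L .snd ℝ _ _)) ∘L .fst ℝ _ _).prod
    (((ContinuousLinearMap.fst ℝ _ _ ∘L .snd ℝ _ _) +
      ro σ₂ k ∘L .snd ℝ _ _ ∘L .snd ℝ _ _ ∘L .fst ℝ _ _).prod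
        (.fst ℝ _ _ ∘L .snd ℝ _ _ ∘L .snd ℝ _ _))

theorem mx_apply (f : Z σ₁ k r₂ × Z σ₂ k 0) :
    mx σ₁ σ₂ k f = ((f.1.1, f.1.2.1), (f.2.1 + ro σ₂ k f.1.2.2, f.2.2.1)) := rfl

/-- the equations on the faces near `b`, with the offset `o` -/
def Sf (q : d.W →₀ ℝ) (μ : T₁ → Cfg X₁.M κ ν → Fin r₂ → ℝ) (b : E0 σ₁ σ₂ k)
    (o : (Fin r₁ → ℝ) × (Fin r₂ → ℝ)) (v : E0 σ₁ σ₂ k) : F0 σ₁ σ₂ k :=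
  mx σ₁ σ₂ k (Φ σ₁ k q μ b.1 (b.1 + v.1), Φ σ₂ k q 0 b.2 (b.2 + v.2)) +
    ((ro σ₁ k o.1, 0), (ro σ₂ k o.2, 0))

/-- the linearisation on the faces -/
def Lf (q : d.W →₀ ℝ) (μ : T₁ → Cfg X₁.M κ ν → Fin r₂ → ℝ) (b : E0 σ₁ σ₂ k) :
    E0 σ₁ σ₂ k →L[ℝ] F0 σ₁ σ₂ k :=
  mx σ₁ σ₂ k ∘L (fderiv ℝ (Φ σ₁ k q μ b.1) b.1).prodMap (fderiv ℝ (Φ σ₂ k q 0 b.2) b.2)

variable (g₁ : X₁.M → ℝ) (g₂ : X₂.M → ℝ) (b : ℝ → ℝ)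

def mE : E0 σ₁ σ₂ k →L[ℝ] E0 σ₁ σ₂ k := (mC σ₁ k g₁ b).prodMap (mC σ₂ k g₂ b)

def mF : F0 σ₁ σ₂ k →L[ℝ] F0 σ₁ σ₂ k :=
  ((mY σ₁ k g₁ b).prodMap (mH σ₁ k g₁ b)).prodMap ((mY σ₂ k g₂ b).prodMap (mH σ₂ k g₂ b))

end two

/-- the partition of unity: `χ Λ t + χ Λ (4 Λ - t) = 1` -/
def χ (Λ : ℝ) : ℝ → ℝ := dn (2 * Λ + 1 / 2) 1

variable (S : Sp X X₁ X₂ nc n₁ n₂ T T₁ T₂) {σ : Cel s nc nr T} {σ₁ : Cel s₁ n₁ r₁ T₁}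
  {σ₂ : Cel s₂ n₂ r₂ T₂} {k : ℕ} (δ : ℝ × ℝ)

/-- the transfer of configurations; `c` is glued from `x` and `z` -/
structure TrE (c : σ.Pnt) (x : σ₁.Pnt) (z : σ₂.Pnt) (P : Cx T₁ T₂ σ k →L[ℝ] E0 σ₁ σ₂ k)
    (Q : E0 σ₁ σ₂ k →L[ℝ] Cx T₁ T₂ σ k) (C : ℝ) : Prop where
  inv : ∀ u, Q (mE σ₁ σ₂ k S.g₁ S.g₂ (χ (S.Λ δ)) (P u)) = u
  bd : ‖P ∘L Q‖ ≤ C
  par : ∀ u, ((P u).1.2.2, (P u).2.2.2) = u.2.2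
  sm : ∀ y : σ.Pnt, ∀ t₁ ∈ σ₁.Q, ∀ t₂ ∈ σ₂.Q, y.1.1 = S.θ δ (t₁, t₂) → ∃ y₁ y₂,
    (σ₁.pt k y₁, σ₂.pt k y₂) = (σ₁.pt k x, σ₂.pt k z) + P (co σ k c y (t₁ - x.1.1, t₂ - z.1.1)) ∧
      S.Agr δ (3 * S.Λ δ + 1) y y₁ y₂

/-- the transfer of equations -/
structure TrF (Lr : ((Fin nr → ℝ) × (Fin m → ℝ)) ≃L[ℝ] ((Fin r₁ → ℝ) × (Fin r₂ → ℝ)))
    (P : Z σ k m →L[ℝ] F0 σ₁ σ₂ k) (Q : F0 σ₁ σ₂ k →L[ℝ] Z σ k m) (C : ℝ) : Prop where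
  inv : ∀ f, Q (mF σ₁ σ₂ k S.g₁ S.g₂ (χ (S.Λ δ)) (P f)) = f
  bd : ‖P ∘L Q‖ ≤ C
  v₁ : ∀ f p, S.g₁ p < 3 * S.Λ δ + 1 →
    s₁.bg.F.val _ _ (P f).1.1.1 p = s.bg.F.val _ _ f.1.1 (S.φ₁ δ p) ∧
    s₁.bg.F.val _ _ (P f).1.1.2.1 p = s.bg.F.val _ _ f.1.2.1 (S.φ₁ δ p) ∧
    s₁.bg.F.val _ _ (P f).1.2 p = s.bg.F.val _ _ f.2.1 (S.φ₁ δ p)
  v₂ : ∀ f p, S.g₂ p < 3 * S.Λ δ + 1 →
    s₂.bg.F.val _ _ (P f).2.1.1 p = s.bg.F.val _ _ f.1.1 (S.φ₂ δ p) ∧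
    s₂.bg.F.val _ _ (P f).2.1.2.1 p = s.bg.F.val _ _ f.1.2.1 (S.φ₂ δ p) ∧
    s₂.bg.F.val _ _ (P f).2.2 p = s.bg.F.val _ _ f.2.1 (S.φ₂ δ p)
  c₁ : ∀ f j, (P f).1.1.2.2.1 j = f.1.2.2.1 (S.e (.inl j))
  c₂ : ∀ f j, (P f).2.1.2.2.1 j = f.1.2.2.1 (S.e (.inr j))
  rw : ∀ f, ((P f).1.1.2.2.2, (P f).2.1.2.2.2) = Lr (f.1.2.2.2, f.2.2)

/-! ### the leaves -/

variable (d ty X nc nr T) in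
/-- GL-LOC: the linearisation is local -/
def LocStmt : Prop := ∀ (s : Pz X 0 fun i => d.e (ty i)) (σ : Cel s nc nr T), σ.OK → ∀ k, 7 ≤ k →
  ∀ (g : X.M → ℝ) J a₀ η (m : ℕ) (μ : T → Cfg X.M κ ν → Fin m → ℝ) (x : σ.Pnt) (q : d.W →₀ ℝ),
    0 ≤ a₀ → 0 < η → Face σ g J a₀ → q.support ⊆ J → (∀ j, σ.Fn fun t c => μ t c j) →
    Flat σ g x σ.R a₀ η → Flat σ g x μ a₀ η → ∀ a, a₀ + 3 ≤ a → ∀ b c, Neck67.Sm b → Neck67.Sm c →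
    ((∀ t, a ≤ t → b t = 0) ∧ (∀ t, t ≤ a + 3 → c t = 0) ∨
      (∀ t, t ≤ a → b t = 0) ∧ ∀ t, a - 3 ≤ t → c t = 0) →
    ∀ v, mZ σ k g b m (fderiv ℝ (Φ σ k q μ (σ.pt k x)) (σ.pt k x) (mC σ k g c v)) = 0

variable (d ty X nc nr T T₁ T₂) in
/-- GL-FR: the derivative of the equations in the chart; the index -/
def FrStmt : Prop := ∀ (s : Pz X 0 fun i => d.e (ty i)) (σ : Cel s nc nr T), σ.OK → ∀ k, 7 ≤ k →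
  ∀ (θ : T₁ × T₂ →ᴬ[ℝ] T) q (m : ℕ) (ρ : T → Cfg X.M κ ν → Fin m → ℝ) (c : σ.Pnt),
    (∀ j, σ.Fn fun t c => ρ t c j) →
    (∀ u, σ.pt k c + lA σ k θ u ∈ σ.U k → DifferentiableAt ℝ (Hf σ k θ q ρ c) u ∧ ∀ w,
      (fderiv ℝ (Hf σ k θ q ρ c) u w).1 =
        fderiv ℝ (σ.F k q) (σ.pt k c + lA σ k θ u) (lA σ k θ w) ∧ ∀ j,
      (fderiv ℝ (Hf σ k θ q ρ c) u w).2.2 j =
        fderiv ℝ (σ.rr k fun t c => ρ t c j) (σ.pt k c + lA σ k θ u) (lA σ k θ w)) ∧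
    (σ.Ind 1 → Module.finrank ℝ T₁ + Module.finrank ℝ T₂ + 1 = Module.finrank ℝ T + m →
      Fred93.Fr (fderiv ℝ (Hf σ k θ q ρ c) 0) 0)

variable (d ty X₁ X₂ n₁ r₁ n₂ r₂ T₁ T₂) in
/-- GL-C1: the face equations are `C¹` close to an isomorphism -/
def C1Stmt : Prop := ∀ (s₁ : Pz X₁ 0 fun i => d.e (ty i)) (s₂ : Pz X₂ 0 fun i => d.e (ty i))
  (σ₁ : Cel s₁ n₁ r₁ T₁) (σ₂ : Cel s₂ n₂ r₂ T₂), σ₁.OK → σ₂.OK → ∀ k, 7 ≤ k →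
  ∀ (μ : T₁ → Cfg X₁.M κ ν → Fin r₂ → ℝ) q₀ (x : σ₁.Pnt) (z : σ₂.Pnt),
    (∀ j, σ₁.Fn fun t c => μ t c j) → σ₁.Sol q₀ x → σ₂.Sol q₀ z → IsoAt σ₁ k q₀ x →
    IsoAt σ₂ k q₀ z → Bijective (Lf σ₁ σ₂ k q₀ μ (σ₁.pt k x, σ₂.pt k z)) ∧
    ∀ (ι : Type) (l : Filter ι) q b o, St.Cv l q q₀ → Tendsto b l (𝓝 (σ₁.pt k x, σ₂.pt k z)) →
      Tendsto o l (𝓝 (0, -μ x.1.1 x.1.2)) →
      Tendsto (fun i => Sf σ₁ σ₂ k (q i) μ (b i) (o i) 0) l (𝓝 0) ∧ ∀ ε > 0, ∃ r > 0, ∀ᶠ i in l,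
        ∀ v, ‖v‖ ≤ r → DifferentiableAt ℝ (Sf σ₁ σ₂ k (q i) μ (b i) (o i)) v ∧
          ‖fderiv ℝ (Sf σ₁ σ₂ k (q i) μ (b i) (o i)) v -
            Lf σ₁ σ₂ k q₀ μ (σ₁.pt k x, σ₂.pt k z)‖ ≤ ε

section three
variable (d ty X X₁ X₂ nc nr n₁ r₁ n₂ r₂ T T₁ T₂)

/-- a property of pre-glued configurations -/
def AllP (A : ∀ (s : Pz X 0 fun i => d.e (ty i)) (s₁ : Pz X₁ 0 fun i => d.e (ty i))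
    (s₂ : Pz X₂ 0 fun i => d.e (ty i)) (σ : Cel s nc nr T) (σ₁ : Cel s₁ n₁ r₁ T₁)
    (σ₂ : Cel s₂ n₂ r₂ T₂) (_ : Sp X X₁ X₂ nc n₁ n₂ T T₁ T₂) (_ : σ₁.Pnt) (_ : σ₂.Pnt)
    (_ : ℝ × ℝ → σ₁.Pnt) (_ : ℝ × ℝ → σ₂.Pnt) (_ : ℝ × ℝ → σ.Pnt), Prop) : Prop :=
  ∀ s s₁ s₂ σ σ₁ σ₂ S x z xx zz cc, S.Geo σ σ₁ σ₂ → S.Pre x z xx zz cc →
    A s s₁ s₂ σ σ₁ σ₂ S x z xx zz cc

/-- GL-TRE -/
def TreStmt : Prop := AllP d ty X X₁ X₂ nc nr n₁ r₁ n₂ r₂ T T₁ T₂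
  fun _ _ _ _ _ _ S _ _ xx zz cc => ∀ k, 7 ≤ k → ∃ C, ∀ᶠ δ in S.lg, ∃ P Q,
    TrE (k := k) S δ (cc δ) (xx δ) (zz δ) P Q C

/-- GL-TRF -/
def TrfStmt : Prop := AllP d ty X X₁ X₂ nc nr n₁ r₁ n₂ r₂ T T₁ T₂
  fun _ _ _ σ σ₁ σ₂ S _ _ _ _ _ => ∀ k, 7 ≤ k → ∀ (m : ℕ) Lr, ∃ C, ∀ᶠ δ in S.lg, ∃ P Q,
    TrF (σ := σ) (σ₁ := σ₁) (σ₂ := σ₂) (k := k) (m := m) S δ Lr P Q C

/-- GL-D0: the equations correspond -/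
def D0Stmt : Prop := AllP d ty X X₁ X₂ nc nr n₁ r₁ n₂ r₂ T T₁ T₂
  fun _ _ _ σ σ₁ σ₂ S x z xx zz cc => ∀ (m : ℕ) (R : Rw κ ν X X₁ nr r₁ r₂ m T T₁) f,
    R.OK S σ x z f → ∀ k, 7 ≤ k → ∀ J : Finset d.W, ∃ r₀ > 0, ∀ᶠ δ in S.lg, ∀ P Q C P' Q' C',
      TrE S δ (cc δ) (xx δ) (zz δ) P Q C → TrF S δ R.Lr P' Q' C' → ∀ τ, (δ, τ) ∈ R.A →
      ∀ q : d.W →₀ ℝ, q.support ⊆ J → ∀ b, Neck67.Sm b → (∀ t, 3 * S.Λ δ - 1 ≤ t → b t = 0) →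
      ∀ u, ‖P u‖ ≤ r₀ → mF σ₁ σ₂ k S.g₁ S.g₂ b (P' (Hf σ k (S.θ δ) q (R.ρ τ) (cc δ) u)) =
        mF σ₁ σ₂ k S.g₁ S.g₂ b (Sf σ₁ σ₂ k q R.μ (σ₁.pt k (xx δ), σ₂.pt k (zz δ))
          (R.off δ τ - (0, R.μ x.1.1 x.1.2)) (P u))

/-- GL-NR: the converse of GL-CP -/
def NrStmt : Prop := AllP d ty X X₁ X₂ nc nr n₁ r₁ n₂ r₂ T T₁ T₂
  fun _ _ _ σ σ₁ σ₂ S x z _ _ _ => ∀ k (ι : Type) (l : Filter ι) δ (y : ι → σ.Pnt)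
    (y₁ : ι → σ₁.Pnt) (y₂ : ι → σ₂.Pnt), Tendsto (fun i => σ₁.dk k (y₁ i) x) l (𝓝 0) →
    Tendsto (fun i => σ₂.dk k (y₂ i) z) l (𝓝 0) →
    (∀ᶠ i in l, ∃ a > 2 * S.Λ (δ i) + 1, S.Agr (δ i) a (y i) (y₁ i) (y₂ i)) →
    S.Nr k l δ y (fun i => (y₁ i).1.1) (fun i => (y₂ i).1.1) x z

/-- GL-CF: from the chart to the conclusions -/
def CfStmt : Prop := AllP d ty X X₁ X₂ nc nr n₁ r₁ n₂ r₂ T T₁ T₂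
  fun _ _ _ σ σ₁ σ₂ S x z xx zz cc => σ.Ind 1 → (∃ p, x.1.2.Φ p ≠ 0) →
    ∀ (m : ℕ) (R : Rw κ ν X X₁ nr r₁ r₂ m T T₁) f, R.OK S σ x z f → ∀ k, 7 ≤ k →
    ∀ (ι : Type) (l : Filter ι) δ τ (q : ι → d.W →₀ ℝ), R.Sq S l δ τ →
    ∀ (P : ι → Cx T₁ T₂ σ k →L[ℝ] E0 σ₁ σ₂ k) (Q : ι → E0 σ₁ σ₂ k →L[ℝ] Cx T₁ T₂ σ k)
      (P' : ι → Z σ k m →L[ℝ] F0 σ₁ σ₂ k) C K r, 0 < K → 0 < r →
      (∀ᶠ i in l, TrE S (δ i) (cc (δ i)) (xx (δ i)) (zz (δ i)) (P i) (Q i) C ∧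
        Cht (P i) (P' i) (Hf σ k (S.θ (δ i)) (q i) (R.ρ (τ i)) (cc (δ i))) K r) →
      Tendsto (fun i => P' i (Hf σ k (S.θ (δ i)) (q i) (R.ρ (τ i)) (cc (δ i)) 0)) l (𝓝 0) →
      Core S R x z k l δ τ q fun i => cc (δ i)

end three

end Crest.Agent.X212.Gls64
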