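import Crest.Agent.X212.Gls64.Ag

/-!
# Row 212, GL-S (helper64): `CoreStmt` from its leaves
-/

set_option autoImplicit false
set_option linter.unusedSectionVars false
noncomputable section
open scoped Manifold ContDiff Topology InnerProductSpace
open MeasureTheory Set Function Filter

namespace Crest.Agent.X212.Gls64
open An Cyf70 Prm93 Sw Sob92
open M (Mf)
open Neck67 (dn cS)

variable {κ lam ν : Type} [Fintype κ] [Fintype lam] [Fintype ν] [DecidableEq ν]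
  {d : Dt κ lam ν} {N : Type} [Fintype N] {ty : N → d.𝓔} {X X₁ X₂ : Mf 4}
  {nc nr n₁ r₁ n₂ r₂ m : ℕ}
  {T T₁ T₂ : Type} [NormedAddCommGroup T] [NormedSpace ℝ T] [FiniteDimensional ℝ T]
  [NormedAddCommGroup T₁] [NormedSpace ℝ T₁] [FiniteDimensional ℝ T₁]
  [NormedAddCommGroup T₂] [NormedSpace ℝ T₂] [FiniteDimensional ℝ T₂]
  {s : Pz X 0 fun i => d.e (ty i)} {s₁ : Pz X₁ 0 fun i => d.e (ty i)}
  {s₂ : Pz X₂ 0 fun i => d.e (ty i)} {σ : Cel s nc nr T} {σ₁ : Cel s₁ n₁ r₁ T₁}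
  {σ₂ : Cel s₂ n₂ r₂ T₂} {k : ℕ} {S : Sp X X₁ X₂ nc n₁ n₂ T T₁ T₂}

theorem mF_mx (g₁ : X₁.M → ℝ) (g₂ : X₂.M → ℝ) (b : ℝ → ℝ) (f : Z σ₁ k r₂ × Z σ₂ k 0) :
    mF σ₁ σ₂ k g₁ g₂ b (mx σ₁ σ₂ k f) =
      mx σ₁ σ₂ k (mZ σ₁ k g₁ b r₂ f.1, mZ σ₂ k g₂ b 0 f.2) := by
  refine Prod.ext rfl (Prod.ext ?_ rfl)
  change mY σ₂ k g₂ b (f.2.1 + ro σ₂ k f.1.2.2) = mY σ₂ k g₂ b f.2.1 + ro σ₂ k (b 0 • f.1.2.2)
  rw [map_add]
  exact congrArg _ (Prod.ext (map_zero (smulH _ _ _ _)) (Prod.ext (map_zero (smulH _ _ _ _))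
    (Prod.ext (smul_zero (b 0)) rfl)))

theorem Sp.len {ι : Type} {l : Filter ι} {δ : ι → ℝ × ℝ} (h : Tendsto δ l S.lg) :
    Tendsto (fun i => S.Λ (δ i)) l atTop := tendsto_comap_iff.1 (h.mono_right inf_le_left)

theorem cr_of (h : σ.OK) : s.Cr σ.β := fun i b hb => (h.gd i b hb).crit

theorem tendsto_pt (h : σ.OK) (hk : 3 ≤ k) {ι : Type} {l : Filter ι} {y : ι → σ.Pnt} {x : σ.Pnt}
    (hy : Tendsto (fun i => σ.dk (k + 1) (y i) x) l (𝓝 0)) :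
    Tendsto (fun i => σ.pt k (y i)) l (𝓝 (σ.pt k x)) :=
  tendsto_iff_norm_sub_tendsto_zero.2 (squeeze_zero (fun _ => norm_nonneg _)
    (fun _ => Pb50.norm_le_dk h.toOK (cr_of h) hk _ _) hy)

/-- the parameter of a point of the chart -/
theorem par_lA {δ : ℝ × ℝ} {c : σ.Pnt} {t : T₁ × T₂} (h : c.1.1 = S.θ δ t) (u : Cx T₁ T₂ σ k) :
    (σ.pt k c + lA σ k (S.θ δ) u).2.2 = S.θ δ (t + u.2.2) := by
  change c.1.1 + (S.θ δ).contLinear u.2.2 = _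
  rw [h, add_comm t, ← vadd_eq_add u.2.2, ContinuousAffineMap.map_vadd, vadd_eq_add, add_comm]

/-- small vectors of the chart have admissible parameters -/
theorem exists_dom (hG : S.Geo σ σ₁ σ₂) (x : σ₁.Pnt) (z : σ₂.Pnt) : ∃ r > 0,
    ∀ v : E0 σ₁ σ₂ k, ‖v‖ ≤ r → x.1.1 + v.1.2.2 ∈ σ₁.Q ∧ z.1.1 + v.2.2.2 ∈ σ₂.Q := by
  have h1 : ∀ᶠ v : E0 σ₁ σ₂ k in 𝓝 0, x.1.1 + v.1.2.2 ∈ σ₁.Q ∧ z.1.1 + v.2.2.2 ∈ σ₂.Q :=
    ((by fun_prop : Continuous fun v : E0 σ₁ σ₂ k => x.1.1 + v.1.2.2).continuousAt.eventually_mem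
      (hG.ok₁.opn.mem_nhds (by simpa using x.2.1))).and
    ((by fun_prop : Continuous fun v : E0 σ₁ σ₂ k => z.1.1 + v.2.2.2).continuousAt.eventually_mem
      (hG.ok₂.opn.mem_nhds (by simpa using z.2.1)))
  obtain ⟨r, hr, h⟩ := Metric.nhds_basis_closedBall.eventually_iff.1 h1
  exact ⟨r, hr, fun v hv => h (mem_closedBall_zero_iff.2 hv)⟩

/-- **GL-CORE** -/
theorem coreStmt (hL₁ : LocStmt d ty X₁ n₁ r₁ T₁) (hL₂ : LocStmt d ty X₂ n₂ r₂ T₂)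
    (hFr : FrStmt d ty X nc nr T T₁ T₂) (hC : C1Stmt d ty X₁ X₂ n₁ r₁ n₂ r₂ T₁ T₂)
    (hE : TreStmt d ty X X₁ X₂ nc nr n₁ r₁ n₂ r₂ T T₁ T₂)
    (hF : TrfStmt d ty X X₁ X₂ nc nr n₁ r₁ n₂ r₂ T T₁ T₂)
    (hD : D0Stmt d ty X X₁ X₂ nc nr n₁ r₁ n₂ r₂ T T₁ T₂)
    (hCf : CfStmt d ty X X₁ X₂ nc nr n₁ r₁ n₂ r₂ T T₁ T₂) :
    CoreStmt d ty X X₁ X₂ nc nr n₁ r₁ n₂ r₂ T T₁ T₂ := by
  classical
  intro s s₁ s₂ σ σ₁ σ₂ S hG hI x z xx zz cc hP m R f hR k hk q₀ hx hz ix iz ι l δ τ q hS hq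
  have k3 : 3 ≤ k := by omega
  obtain ⟨J₀, hJ, -⟩ := id hq
  have hJ' : ∀ i, (q i).support ⊆ J₀ ∪ q₀.support := fun i w hw => by
    by_cases h : w ∈ J₀
    · exact Finset.mem_union_left _ h
    · exact Finset.mem_union_right _ (by rwa [Finsupp.mem_support_iff, ← hJ i w h,
        ← Finsupp.mem_support_iff])
  obtain ⟨η, η0, hFl, -⟩ := hR.row
  obtain ⟨a₀, ⟨⟨f₁, f₂, hM⟩, l₁, l₂, l₃⟩, a0⟩ :=
    (((hG.mt (J₀ ∪ q₀.support)).and hFl).and (eventually_ge_atTop 0)).exists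
  obtain ⟨hB, hc⟩ := hC s₁ s₂ σ₁ σ₂ hG.ok₁ hG.ok₂ k hk R.μ q₀ x z hR.fμ hx hz ix iz
  have : CompleteSpace T := FiniteDimensional.complete ℝ T
  have : CompleteSpace T₁ := FiniteDimensional.complete ℝ T₁
  have : CompleteSpace T₂ := FiniteDimensional.complete ℝ T₂
  let L := ContinuousLinearEquiv.ofBijective _ (LinearMap.ker_eq_bot.2 hB.1)
    (LinearMap.range_eq_top.2 hB.2)
  have lc : Lc (mE σ₁ σ₂ k S.g₁ S.g₂) (mF σ₁ σ₂ k S.g₁ S.g₂) (L : _ →L[ℝ] _) (a₀ + 3) :=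
    fun a ha b c hb hc h v => (mF_mx _ _ _ _).trans (by
      rw [← map_zero (mx σ₁ σ₂ k)]
      exact congrArg _ (Prod.ext (hL₁ s₁ σ₁ hG.ok₁ k hk _ _ a₀ η _ R.μ x q₀ a0 η0 f₁
        Finset.subset_union_right hR.fμ l₁ l₂ a ha b c hb hc h v.1)
        (hL₂ s₂ σ₂ hG.ok₂ k hk _ _ a₀ η _ 0 z q₀ a0 η0 f₂ Finset.subset_union_right
          (fun j => j.elim0) l₃ (fun _ _ _ _ _ _ => rfl) a ha b c hb hc h v.2)))
  obtain ⟨C₁, e1⟩ := hE s s₁ s₂ σ σ₁ σ₂ S x z xx zz cc hG hP k hk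
  obtain ⟨C₂, e2⟩ := hF s s₁ s₂ σ σ₁ σ₂ S x z xx zz cc hG hP k hk m R.Lr
  obtain ⟨r₀, r0, e3⟩ := hD s s₁ s₂ σ σ₁ σ₂ S x z xx zz cc hG hP m R f hR k hk (J₀ ∪ q₀.support)
  obtain ⟨C₃, c3, mE', mF', hW⟩ := isM_two σ₁ σ₂ k f₁.hg f₂.hg
  obtain ⟨K, K1, K2, K3, K4, K5, K6⟩ : ∃ K, 1 ≤ K ∧ C₁ ≤ K ∧ C₂ ≤ K ∧ C₃ * cS (k + 1) ≤ K ∧
      ‖L.toContinuousLinearMap‖ ≤ K ∧ ‖L.symm.toContinuousLinearMap‖ ≤ K :=
    ((eventually_ge_atTop _).and ((eventually_ge_atTop _).and ((eventually_ge_atTop _).and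
      ((eventually_ge_atTop _).and ((eventually_ge_atTop _).and (eventually_ge_atTop _)))))).exists
  have K0 : 0 < K := one_pos.trans_le K1
  have ε0 : 0 < 1 / (8 * K ^ 7) := by positivity
  obtain ⟨n, hn⟩ := com c3 mE' mF' hW lc ε0
  obtain ⟨s0, hc⟩ := hc ι l q (fun i => (σ₁.pt k (xx (δ i)), σ₂.pt k (zz (δ i))))
    (fun i => R.off (δ i) (τ i) - (0, R.μ x.1.1 x.1.2)) hq
    ((tendsto_pt hG.ok₁ k3 ((hP.cx _).comp hS.lg)).prodMk_nhds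
      (tendsto_pt hG.ok₂ k3 ((hP.cz _).comp hS.lg)))
    (by simpa using hS.off.sub_const (0, R.μ x.1.1 x.1.2))
  obtain ⟨ρ₁, ρ1, hc⟩ := hc _ ε0
  obtain ⟨ρ₂, ρ2, hd⟩ := exists_dom (k := k) hG x z
  choose! P Q hPQ using fun δ (h : ∃ P Q, TrE (k := k) S δ (cc δ) (xx δ) (zz δ) P Q C₁) => h
  choose! P' Q' hPQ' using fun δ (h : ∃ P Q, TrF (σ := σ) (σ₁ := σ₁) (σ₂ := σ₂) (k := k) S δ R.Lr
    P Q C₂) => h
  set r := min ρ₁ (min (r₀ / 2) ρ₂)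
  have r1 : r ≤ ρ₁ := min_le_left _ _
  have r2 : r ≤ r₀ / 2 := (min_le_right _ _).trans (min_le_left _ _)
  have r3 : r ≤ ρ₂ := (min_le_right _ _).trans (min_le_right _ _)
  have hr : 0 < r := lt_min ρ1 (lt_min (half_pos r0) ρ2)
  have key : ∀ᶠ i in l, TrE S (δ i) (cc (δ i)) (xx (δ i)) (zz (δ i)) (P (δ i)) (Q (δ i)) C₁ ∧
      Cht (P (δ i)) (P' (δ i)) (Hf σ k (S.θ (δ i)) (q i) (R.ρ (τ i)) (cc (δ i))) (4 * K ^ 4) r ∧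
      ‖P' (δ i) (Hf σ k (S.θ (δ i)) (q i) (R.ρ (τ i)) (cc (δ i)) 0)‖ ≤ K ^ 3 * ‖Sf σ₁ σ₂ k (q i) R.μ
        (σ₁.pt k (xx (δ i)), σ₂.pt k (zz (δ i))) (R.off (δ i) (τ i) - (0, R.μ x.1.1 x.1.2)) 0‖ := by
    filter_upwards [hS.lg.eventually (e1.and (e2.and (e3.and (hM.and hP.ag)))), hS.A, hc,
      (Sp.len hS.lg).eventually_ge_atTop (max (n + 4) (a₀ + 2))]
      with i ⟨t1, t2, t3, t4, p1, p2, p3, _⟩ hA hc hΛ
    have t1 := hPQ _ t1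
    have t2 := hPQ' _ t2
    have Λ1 := (le_max_left _ _).trans hΛ
    have Λ2 := (le_max_right _ _).trans hΛ
    have fr := hFr s σ hG.ok k hk (S.θ (δ i)) (q i) m (R.ρ (τ i)) (cc (δ i)) (hR.fρ _)
    have nb : ∀ {b}, Neck67.Sm b → Neck67.Bd (k + 1) b (cS (k + 1)) →
        ‖mE σ₁ σ₂ k S.g₁ S.g₂ b‖ ≤ K ∧ ‖mF σ₁ σ₂ k S.g₁ S.g₂ b‖ ≤ K := fun hb hA =>
      ⟨(mE'.norm_le (by linarith) hb hA).trans K4, (mF'.norm_le (by linarith) hb hA).trans K4⟩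
    refine ⟨t1, ag (L := L) (B := (fun a => (mE σ₁ σ₂ k S.g₁ S.g₂ (dn a 1),
      mF σ₁ σ₂ k S.g₁ S.g₂ (dn a 1))) '' Icc (2 * S.Λ (δ i) + 3) (2 * S.Λ (δ i) + 3 + n)) K1 hr
      t1.inv t2.inv (t1.bd.trans K2) (t2.bd.trans K3) (nb (sm_χ _) (bd_χ _ _)).1
      (nb (sm_χ _) (bd_χ _ _)).2 K5 K6 ?_ (fun v => ?_) (fun u hu => (fr.1 u ?_).1)
      (fun v hv => hc v (hv.trans r1)) (fr.2 hI hR.dim) (by field_simp; rfl)⟩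
    · rintro _ ⟨a, ha, rfl⟩
      have s0 := Neck67.sm_dn le_rfl a
      have e : χ (S.Λ (δ i)) * dn a 1 = χ (S.Λ (δ i)) := funext fun t => by
        rcases le_total (2 * S.Λ (δ i) + 1 / 2) t with h | h
        · simp [χ_zero h]
        · simp [Neck67.dn_one one_pos (show t ≤ a - 1 by linarith [ha.1])]
      exact ⟨fun v => (mE'.mul (sm_χ _) s0 v).trans (by rw [e]),
        fun v => (mF'.mul (sm_χ _) s0 v).trans (by rw [e]),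
        (nb s0 (Neck67.bd_dn _ le_rfl _).of_succ).2, fun u hu => t3 _ _ _ _ _ _ t1 t2 _ hA _ (hJ' i)
          _ s0 (fun t ht => Neck67.dn_zero one_pos (by linarith [ha.2])) u (by linarith)⟩
    · obtain ⟨a, ha, h⟩ := hn (2 * S.Λ (δ i) + 3) (by linarith) (by linarith) v
      exact ⟨_, ⟨a, ha, rfl⟩, h⟩
    · obtain ⟨d1, d2⟩ := hd _ (hu.trans r3)
      change (σ.pt k (cc (δ i)) + lA σ k (S.θ (δ i)) u).2.2 ∈ σ.Q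
      rw [par_lA p3, p1, p2, ← t1.par u]
      exact (t4 _ d1 _ d2).1
  refine hCf s s₁ s₂ σ σ₁ σ₂ S x z xx zz cc hG hP hI hx.1.1.2 m R f hR k hk ι l δ τ q hS
    (fun i => P (δ i)) (fun i => Q (δ i)) (fun i => P' (δ i)) C₁ (4 * K ^ 4) r (by positivity) hr
    (key.mono fun i h => ⟨h.1, h.2.1⟩) (squeeze_zero_norm' (key.mono fun i h => h.2.2) ?_)
  simpa using s0.norm.const_mul (K ^ 3)

end Crest.Agent.X212.Gls64
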