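import Crest.Agent.X212.Gls64.Cf
import Crest.Agent.X212.Gl50.Cp
import Crest.Agent.X212.Gl50.Face
import Crest.Agent.X212.Fht9.Main

/-!
# Row 212, GL-FIN (helper64): the gluing theorem from its leaves
-/

set_option autoImplicit false
set_option linter.unusedSectionVars false
noncomputable section
open scoped Manifold ContDiff Topology InnerProductSpace
open MeasureTheory Set Function Filter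

namespace Crest.Agent.X212.Gls64
open An Cyf70 Prm93 Sw
open M (Mf)

variable {κ lam ν : Type} [Fintype κ] [Fintype lam] [Fintype ν] [DecidableEq ν]
  {d : Dt κ lam ν} {X X₁ X₂ : Mf 4} {nc nr n₁ r₁ n₂ r₂ m : ℕ}
  {T T₁ T₂ : Type} [NormedAddCommGroup T] [NormedSpace ℝ T] [FiniteDimensional ℝ T]
  [NormedAddCommGroup T₁] [NormedSpace ℝ T₁] [FiniteDimensional ℝ T₁]
  [NormedAddCommGroup T₂] [NormedSpace ℝ T₂] [FiniteDimensional ℝ T₂]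

section sp
variable {N : Type} [Fintype N] {ty : N → d.𝓔} {s : Pz X 0 fun i => d.e (ty i)}
  {s₁ : Pz X₁ 0 fun i => d.e (ty i)} {s₂ : Pz X₂ 0 fun i => d.e (ty i)} {σ : Cel s nc nr T}
  {σ₁ : Cel s₁ n₁ r₁ T₁} {σ₂ : Cel s₂ n₂ r₂ T₂} {k : ℕ} {S : Sp X X₁ X₂ nc n₁ n₂ T T₁ T₂}
  {x : σ₁.Pnt} {z : σ₂.Pnt} {ι : Type} {l : Filter ι} {δ : ι → ℝ × ℝ} {y y' : ι → σ.Pnt}
  {t₁ t₁' : ι → T₁} {t₂ t₂' : ι → T₂} {R : Rw κ ν X X₁ nr r₁ r₂ m T T₁}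
  {f : T → Cfg X.M κ ν → ℝ}

theorem Sp.Nr.mono (h : S.Nr k l δ y t₁ t₂ x z) {j : ℕ} (hj : j ≤ k) : S.Nr j l δ y t₁ t₂ x z :=
  ⟨h.t, h.l₁, h.l₂, fun w hw => h.c₁ w (hw.trans hj), fun w hw => h.c₂ w (hw.trans hj)⟩

theorem Sp.Nr.congr (h : S.Nr k l δ y t₁ t₂ x z)
    (e : ∀ᶠ i in l, y' i = y i ∧ t₁' i = t₁ i ∧ t₂' i = t₂ i) : S.Nr k l δ y' t₁' t₂' x z :=
  ⟨(h.t.and e).mono fun i a => by rw [a.2.1, a.2.2.1, a.2.2.2, a.1],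
    h.l₁.congr' (e.mono fun _ a => a.2.1.symm), h.l₂.congr' (e.mono fun _ a => a.2.2.symm),
    fun w hw => (h.c₁ w hw).congr' (e.mono fun i a => by simp only [a.1, a.2.1]),
    fun w hw => (h.c₂ w hw).congr' (e.mono fun i a => by simp only [a.1, a.2.2])⟩

theorem Rw.Sq.congr {τ τ' : ι → ℝ} (h : R.Sq S l δ τ) (e : ∀ᶠ i in l, τ i = τ' i) :
    R.Sq S l δ τ' :=
  ⟨h.lg, (h.A.and e).mono fun _ a => a.2 ▸ a.1, h.off.congr' (e.mono fun _ a => by simp only [a])⟩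

theorem Rw.Sq.mono {τ : ι → ℝ} (h : R.Sq S l δ τ) {l' : Filter ι} (e : l' ≤ l) : R.Sq S l' δ τ :=
  ⟨h.lg.mono_left e, e h.A, h.off.mono_left e⟩

theorem Sp.Nr.mem (h : S.Nr k l δ y t₁ t₂ x z) (hG : S.Geo σ σ₁ σ₂) :
    ∀ᶠ i in l, t₁ i ∈ σ₁.Q ∧ t₂ i ∈ σ₂.Q ∧ (y i).1.1 = S.θ (δ i) (t₁ i, t₂ i) :=
  (h.l₁.eventually (hG.ok₁.opn.mem_nhds x.2.1)).and
    ((h.l₂.eventually (hG.ok₂.opn.mem_nhds z.2.1)).and h.t)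

variable (S σ x z f k) in
/-- the conclusion of the gluing theorem, symmetric form -/
def GlAt (q₀ : d.W →₀ ℝ) : Prop :=
  (∀ (ι : Type) (𝒰 : Ultrafilter ι) q y, St.Cv (𝒰 : Filter ι) q q₀ →
    (∀ᶠ i in (𝒰 : Filter ι), σ.Sol (q i) (y i)) → S.Deg 𝒰 y x z →
    ∀ᶠ i in (𝒰 : Filter ι), Trv σ k (q i) f (y i)) ∧
  ∀ 𝒰 : Ultrafilter ℝ, (𝒰 : Filter ℝ) ≤ 𝓝[<] 1 →
    (∃ y : ℝ → σ.Pnt, (∀ᶠ τ in (𝒰 : Filter ℝ), σ.Sol q₀ (y τ) ∧ f (y τ).1.1 (y τ).1.2 = τ) ∧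
      S.Deg 𝒰 y x z) ∧
    ∀ y y' : ℝ → σ.Pnt, (∀ᶠ τ in (𝒰 : Filter ℝ), σ.Sol q₀ (y τ) ∧ f (y τ).1.1 (y τ).1.2 = τ) →
      (∀ᶠ τ in (𝒰 : Filter ℝ), σ.Sol q₀ (y' τ) ∧ f (y' τ).1.1 (y' τ).1.2 = τ) →
      S.Deg 𝒰 y x z → S.Deg 𝒰 y' x z → ∀ᶠ τ in (𝒰 : Filter ℝ), σ.Eqv (y τ) (y' τ)

theorem glAt_swap {q₀ : d.W →₀ ℝ} (h : GlAt σ k S.swap z x f q₀) : GlAt σ k S x z f q₀ := by
  simpa only [GlAt, Gl50.deg_swap_iff] using h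

variable {xx : ℝ × ℝ → σ₁.Pnt} {zz : ℝ × ℝ → σ₂.Pnt} {cc : ℝ × ℝ → σ.Pnt} (hG : S.Geo σ σ₁ σ₂)
  (hP : S.Pre x z xx zz cc)
include hG hP

theorem exists_sq (hS : R.Sh S σ x z f) (h : S.Deg l y x z) : ∃ y' t₁ t₂ δ,
    (∀ᶠ i in l, σ.Eqv (y i) (y' i)) ∧ R.Sq S l δ (fun i => f (y' i).1.1 (y' i).1.2) ∧
      ∀ k, S.Nr k l δ y' t₁ t₂ x z := by
  obtain ⟨y', t₁, t₂, δ, h1, h2, h3⟩ := h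
  obtain ⟨y₁, y₂, a1, a2, a3⟩ := Gl50.cpStmt d ty X X₁ X₂ nc nr n₁ r₁ n₂ r₂ T T₁ T₂ s s₁ s₂ σ σ₁ σ₂
    S hG x z xx zz cc hP 8 (by norm_num) ι l δ y' t₁ t₂ h2 (h3 8)
  exact ⟨y', t₁, t₂, δ, h1.mono fun _ a => a.1, hS.dg ι l δ y' y₁ y₂ h2 a1 a2
    ((h1.and a3).mono fun _ a => ⟨a.1.2, a.2.2.2⟩), h3⟩

theorem glAt (hC : CoreStmt d ty X X₁ X₂ nc nr n₁ r₁ n₂ r₂ T T₁ T₂)
    (hRp : RepStmt d ty X nc nr T) (hA : AxStmt d ty X nc nr T) (hI : σ.Ind 1)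
    (hR : R.OK S σ x z f) (hS : R.Sh S σ x z f) (hk : 7 ≤ k) {q₀ : d.W →₀ ℝ} (hx : σ₁.Sol q₀ x)
    (hz : σ₂.Sol q₀ z) (ix : ∀ j, k ≤ j → IsoAt σ₁ j q₀ x) (iz : ∀ j, k ≤ j → IsoAt σ₂ j q₀ z) :
    GlAt σ k S x z f q₀ := by
  have core := fun j (hj : k ≤ j) => hC s s₁ s₂ σ σ₁ σ₂ S hG hI x z xx zz cc hP m R f hR j
    (hk.trans hj) q₀ hx hz (ix j hj) (iz j hj)
  obtain ⟨Γ, hΓ, he⟩ := hA s σ hG.ok 1 hI k hk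
  have sol := (hRp s σ hG.ok k hk).2.2.1
  have se : ∀ {q y y'}, σ.Sol q y → σ.Eqv y y' → σ.Sol q y' := fun {q y y'} a b =>
    (sol q y').2 (hΓ.sol_eqv (x := ⟨(), y⟩) (y := ⟨(), y'⟩) ((eqv_iff Γ 1 he).2 b) ((sol q y).1 a))
  have nrm : ∀ {l : Filter ℝ} {y : ℝ → σ.Pnt},
      (∀ᶠ τ in l, σ.Sol q₀ (y τ) ∧ f (y τ).1.1 (y τ).1.2 = τ) → S.Deg l y x z → ∃ y' t₁ t₂ δ,
      (∀ᶠ τ in l, σ.Eqv (y τ) (y' τ) ∧ σ.Sol q₀ (y' τ) ∧ f (y' τ).1.1 (y' τ).1.2 = τ) ∧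
        R.Sq S l δ id ∧ S.Nr (k + 1) l δ y' t₁ t₂ x z := fun a b => by
    obtain ⟨y', t₁, t₂, δ, h1, h2, h3⟩ := exists_sq hG hP hS b
    have h4 := (h1.and a).mono fun τ a => (⟨a.1, se a.2.1 a.1,
      (hR.ff.2 _ _ a.1.1 a.1.2).trans a.2.2⟩ : _ ∧ _ ∧ f (y' τ).1.1 (y' τ).1.2 = τ)
    exact ⟨y', t₁, t₂, δ, h4, h2.congr (h4.mono fun _ a => a.2.2), h3 _⟩
  refine ⟨fun ι 𝒰 q y hq hy hd => ?_, fun 𝒰 h𝒰 => ⟨?_, fun y y' hy hy' hd hd' => ?_⟩⟩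
  · obtain ⟨y', t₁, t₂, δ, h1, h2, h3⟩ := exists_sq hG hP hS hd
    filter_upwards [(core k le_rfl ι 𝒰 δ _ q h2 hq).tr y' t₁ t₂ (h3 _), h1, hy, h2.A,
      h2.lg.eventually (hR.trv k hk), (h3 0).mem hG] with i a1 a2 a3 a4 a5 ⟨b1, b2, b3⟩
    exact Gl67.tr_eqv hΓ (invF hk Γ 1 he hR.ff) rfl trivial (x := ⟨(), y i⟩) (x' := ⟨(), y' i⟩)
      ((sol _ _).1 (se a3 a2)) (a5 _ a4 _ _ _ b1 _ b2 b3 a1) ((eqv_iff Γ 1 he).2 (he.symm a2))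
  · obtain ⟨δ, h1⟩ := hS.ex
    have h1 := h1.mono h𝒰
    have c := fun j hj => core j hj ℝ 𝒰 δ id _ h1 (St.cv_const _ q₀)
    obtain ⟨y, t₁, t₂, a1, a2⟩ := (c k le_rfl).ex inferInstance
    refine ⟨y, ?_, y, t₁, t₂, δ, a2.mono fun _ a => ⟨he.refl _, a.1.2⟩, h1.lg, fun j => ?_⟩
    · filter_upwards [a2, a1.mem hG, h1.A, h1.lg.eventually hR.lev] with τ a ⟨b1, b2, b3⟩ a4 a5
      exact ⟨a.1, (a5 _ a4 _ _ b1 _ b2 b3).1 a.2.1⟩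
    · obtain ⟨y', t₁', t₂', b1, b2⟩ := (c (k + j) (by omega)).ex inferInstance
      refine (b1.congr ?_).mono (by omega)
      filter_upwards [(c k le_rfl).u0 _ _ _ _ _ _ a1 (b1.mono (by omega)), a2, b2] with τ e a b
      exact e a.1 a.2.1 a.2.2 b.1 b.2.1 b.2.2
  · obtain ⟨w, t₁, t₂, δ, a1, a2, a3⟩ := nrm hy hd
    obtain ⟨w', t₁', t₂', δ', b1, b2, b3⟩ := nrm hy' hd'
    have b4 := hS.uq ℝ 𝒰 δ δ' id a2 b2 (k + 1) (by omega) w' t₁' t₂' b3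
    filter_upwards [(core k le_rfl ℝ 𝒰 δ id _ a2 (St.cv_const _ q₀)).u1 _ _ _ _ _ _ a3 b4, a1, b1,
      a3.mem hG, b4.mem hG, a2.A, a2.lg.eventually hR.lev]
      with τ e a b ⟨c1, c2, c3⟩ ⟨d1, d2, d3⟩ a4 a5
    exact he.trans a.1 (he.trans (e a.2.1 ((a5 _ a4 _ _ c1 _ c2 c3).2 a.2.2) b.2.1
      ((a5 _ a4 _ _ d1 _ d2 d3).2 b.2.2)) (he.symm b.1))

end sp

variable [Fintype d.𝓔] {Sl : Type} [Fintype Sl]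

theorem exists_nk {s : StS d Sl X} {s₁ : StS d Sl X₁} {s₂ : StS d Sl X₂} {σ : Cel s nc nr T}
    {σ₁ : Cel s₁ n₁ r₁ T₁} {σ₂ : Cel s₂ n₂ r₂ T₂} {p : Spl X X₁ X₂ nc n₁ n₂ d Sl T T₁ T₂}
    (h : p.OK σ σ₁ σ₂) : (∃ K ∈ s₁.nk (p.ε, p.aL), K.Inf true) ∧
      ∃ K ∈ s₂.nk (p.ε, p.aR), K.Inf false := by
  obtain ⟨l, hl⟩ := h.cut ∅
  obtain ⟨t₁, m₁⟩ := h.okL.ne
  obtain ⟨t₂, m₂⟩ := h.okR.ne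
  obtain ⟨δ, h1, h2⟩ : ∃ δ ∈ p.Δ, l ≤ δ.2 - δ.1 := by
    rcases h.kind with ⟨-, -, -, -, -, -, a, -⟩ | ⟨-, -, -, -, a, -⟩ | ⟨-, -, -, -, a, -⟩ |
      ⟨-, -, -, -, a⟩
    · exact let ⟨δ, b, _⟩ := a l; ⟨δ, b.1, b.2.ge⟩
    · exact ⟨(0, l), by simp [a], by simp⟩
    · exact ⟨(-l, 0), by simp [a], by simp⟩
    · exact ⟨(0, l), by simp [a], by simp⟩
  obtain ⟨-, -, -, ⟨-, ⟨_, -, K₁, a1, a2, -⟩, -⟩, -, ⟨_, -, K₂, b1, b2, -⟩, -⟩ :=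
    hl δ h1 h2 t₁ m₁ t₂ m₂
  exact ⟨(Pb50.inf_iff h.okL.toOK m₁ _ _).1 ⟨K₁, a1, a2⟩,
    (Pb50.inf_iff h.okR.toOK m₂ _ _).1 ⟨K₂, b1, b2⟩⟩

/-- **GL-FIN** -/
theorem glStmt (hC : CoreStmt d (Prod.fst : d.𝓔 × Sl → _) X X₁ X₂ nc nr n₁ r₁ n₂ r₂ T T₁ T₂)
    (hC' : CoreStmt d (Prod.fst : d.𝓔 × Sl → _) X X₂ X₁ nc nr n₂ r₂ n₁ r₁ T T₂ T₁)
    (hRp : RepStmt d (Prod.fst : d.𝓔 × Sl → _) X nc nr T)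
    (hA : AxStmt d (Prod.fst : d.𝓔 × Sl → _) X nc nr T)
    (hI₁ : IsoStmt d (Prod.fst : d.𝓔 × Sl → _) X₁ n₁ r₁ T₁)
    (hI₂ : IsoStmt d (Prod.fst : d.𝓔 × Sl → _) X₂ n₂ r₂ T₂)
    (hL₁ : LiftStmt d (Prod.fst : d.𝓔 × Sl → _) X₁ n₁ r₁ T₁)
    (hL₂ : LiftStmt d (Prod.fst : d.𝓔 × Sl → _) X₂ n₂ r₂ T₂)
    (hM : MtStmt d X X₁ X₂ nc nr n₁ r₁ n₂ r₂ T T₁ T₂ Sl)
    (hP : PreStmt d X X₁ X₂ nc nr n₁ r₁ n₂ r₂ T T₁ T₂ Sl)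
    (hR : RwStmt d X X₁ X₂ nc nr n₁ r₁ n₂ r₂ T T₁ T₂ Sl) :
    GlStmt d Sl X X₁ X₂ nc nr n₁ r₁ n₂ r₂ T T₁ T₂ := by
  intro s s₁ s₂ σ σ₁ σ₂ p hg hp i₁ i₂ hI k hk q₀ x z hx hz rx rz
  obtain ⟨⟨K₁, k₁, j₁⟩, K₂, k₂, j₂⟩ := exists_nk hp
  have hG : (sp p (ht K₁ true) (ht K₂ false)).Geo σ σ₁ σ₂ := ⟨hp.ok, hp.okL, hp.okR,
    Fht9.htStmt _ _ _ _ _ _ _ _ _ _ _ _ _ _ s s₁ s₂ σ σ₁ σ₂ p hg hp K₁ k₁ K₂ k₂ j₁ j₂, fun J =>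
      (Gl50.faceStmt _ _ _ _ _ _ s₁ σ₁ hp.okL _ _ K₁ k₁ j₁ J).and
        ((Gl50.faceStmt _ _ _ _ _ _ s₂ σ₂ hp.okR _ _ K₂ k₂ j₂ J).and
          (hM s s₁ s₂ σ σ₁ σ₂ p hg hp K₁ k₁ K₂ k₂ j₁ j₂ J))⟩
  obtain ⟨xx, zz, cc, hP⟩ := hP s s₁ s₂ σ σ₁ σ₂ p hg hp K₁ k₁ K₂ k₂ j₁ j₂ x z
  have ix := hL₁ s₁ σ₁ hp.okL i₁ k hk q₀ x (hI₁ s₁ σ₁ hp.okL i₁ k hk q₀ x hx rx)
  have iz := hL₂ s₂ σ₂ hp.okR i₂ k hk q₀ z (hI₂ s₂ σ₂ hp.okR i₂ k hk q₀ z hz rz)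
  have key : GlAt σ k (sp p (ht K₁ true) (ht K₂ false)) x z (σ.wf p.wl) q₀ := by
    rcases hR s s₁ s₂ σ σ₁ σ₂ p hg hp K₁ k₁ K₂ k₂ j₁ j₂ x z hx.2 hz.2 with
      ⟨m, R, h1, h2⟩ | ⟨m, R, h1, h2⟩
    · exact glAt hG hP hC hRp hA hI h1 h2 hk hx hz ix iz
    · exact glAt_swap (glAt (Gl50.geo_swap hG) (Gl50.pre_swap hP) hC' hRp hA hI h1 h2 hk hz hx iz ix)
  have dg := Fht9.dgStmt _ _ _ _ _ _ _ _ _ _ _ _ _ _ s s₁ s₂ σ σ₁ σ₂ p hg hp K₁ k₁ K₂ k₂ j₁ j₂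
  simp only [dg]
  exact key

end Crest.Agent.X212.Gls64
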