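import Crest.Agent.X212.Gls64.Fin
import Crest.Agent.X212.Gl50.Pre
import Crest.Agent.X212.Gr93.TrM
import Crest.Agent.X212.Gr93.Loc
import Crest.Agent.X212.Sw21.Gc
import Crest.Agent.X212.Rw54.Main
import Crest.Agent.X212.Pb50.Rep

/-!
# Row 212, GL-MAIN (helper64): the gluing theorem from the leaves still open
-/

set_option autoImplicit false
set_option linter.unusedSectionVars false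
noncomputable section

namespace Crest.Agent.X212.Gls64
open An Cyf70 Prm93 Sw
open M (Mf)

variable {κ lam ν : Type} [Fintype κ] [Fintype lam] [Fintype ν] [DecidableEq ν]
  {d : Dt κ lam ν} {X X₁ X₂ : Mf 4} {nc nr n₁ r₁ n₂ r₂ : ℕ}
  {T T₁ T₂ : Type} [NormedAddCommGroup T] [NormedSpace ℝ T] [FiniteDimensional ℝ T]
  [NormedAddCommGroup T₁] [NormedSpace ℝ T₁] [FiniteDimensional ℝ T₁]
  [NormedAddCommGroup T₂] [NormedSpace ℝ T₂] [FiniteDimensional ℝ T₂]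

theorem core {N : Type} [Fintype N] {ty : N → d.𝓔} (M : MapStmt d ty X nc nr T)
    (M₁ : MapStmt d ty X₁ n₁ r₁ T₁) (M₂ : MapStmt d ty X₂ n₂ r₂ T₂) (hA : AxStmt d ty X nc nr T)
    (hB : BootStmt d ty X nc nr T) (hD : D0Stmt d ty X X₁ X₂ nc nr n₁ r₁ n₂ r₂ T T₁ T₂) :
    CoreStmt d ty X X₁ X₂ nc nr n₁ r₁ n₂ r₂ T T₁ T₂ :=
  have R := Pb50.repStmt X nc nr d ty T M
  have R₁ := Pb50.repStmt X₁ n₁ r₁ d ty T₁ M₁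
  have R₂ := Pb50.repStmt X₂ n₂ r₂ d ty T₂ M₂
  have hFr := Sw21.frStmt (T₁ := T₁) (T₂ := T₂) R (Gr93.row d ty X nc nr T)
  coreStmt (Gr93.loc d ty X₁ n₁ r₁ T₁ R₁) (Gr93.loc d ty X₂ n₂ r₂ T₂ R₂) hFr
    (Sw21.c1Stmt R₁ (Gr93.row d ty X₁ n₁ r₁ T₁) R₂ (Gr93.row d ty X₂ n₂ r₂ T₂))
    (Gr93.tre d ty X X₁ X₂ nc nr n₁ r₁ n₂ r₂ T T₁ T₂)
    (Gr93.trf d ty X X₁ X₂ nc nr n₁ r₁ n₂ r₂ T T₁ T₂) hD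
    (cfStmt hB R hA hFr (Gl50.cpStmt d ty X X₁ X₂ nc nr n₁ r₁ n₂ r₂ T T₁ T₂)
      (Gl50.nrStmt d ty X X₁ X₂ nc nr n₁ r₁ n₂ r₂ T T₁ T₂))

variable [Fintype d.𝓔] {Sl : Type} [Fintype Sl]

/-- **SW-GL** from the leaves -/
theorem gl_of (M : MapStmt d (Prod.fst : d.𝓔 × Sl → _) X nc nr T)
    (M₁ : MapStmt d (Prod.fst : d.𝓔 × Sl → _) X₁ n₁ r₁ T₁)
    (M₂ : MapStmt d (Prod.fst : d.𝓔 × Sl → _) X₂ n₂ r₂ T₂)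
    (hA : AxStmt d (Prod.fst : d.𝓔 × Sl → _) X nc nr T)
    (hB : BootStmt d (Prod.fst : d.𝓔 × Sl → _) X nc nr T)
    (hI₁ : IsoStmt d (Prod.fst : d.𝓔 × Sl → _) X₁ n₁ r₁ T₁)
    (hI₂ : IsoStmt d (Prod.fst : d.𝓔 × Sl → _) X₂ n₂ r₂ T₂)
    (hL₁ : LiftStmt d (Prod.fst : d.𝓔 × Sl → _) X₁ n₁ r₁ T₁)
    (hL₂ : LiftStmt d (Prod.fst : d.𝓔 × Sl → _) X₂ n₂ r₂ T₂)
    (hD : D0Stmt d (Prod.fst : d.𝓔 × Sl → _) X X₁ X₂ nc nr n₁ r₁ n₂ r₂ T T₁ T₂)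
    (hD' : D0Stmt d (Prod.fst : d.𝓔 × Sl → _) X X₂ X₁ nc nr n₂ r₂ n₁ r₁ T T₂ T₁)
    (hM : MtStmt d X X₁ X₂ nc nr n₁ r₁ n₂ r₂ T T₁ T₂ Sl)
    (hS : Rw54.ShiftStmt d X X₁ X₂ nc nr n₁ r₁ n₂ r₂ T T₁ T₂ Sl) :
    GlStmt d Sl X X₁ X₂ nc nr n₁ r₁ n₂ r₂ T T₁ T₂ :=
  glStmt (core M M₁ M₂ hA hB hD) (core M M₂ M₁ hA hB hD') (Pb50.repStmt X nc nr d _ T M) hA hI₁ hI₂
    hL₁ hL₂ hM (Gl50.preStmt X X₁ X₂ nc nr n₁ r₁ n₂ r₂ d T T₁ T₂ Sl) (Rw54.rwStmt M M₁ M₂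
      (Fht9.flat X nc d nr T _) (Fht9.flat X₁ n₁ d r₁ T₁ _) (Fht9.flat X₂ n₂ d r₂ T₂ _) hS)

end Crest.Agent.X212.Gls64
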