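import Crest.Agent.X212.Gls64.Main
import Crest.Agent.X212.Gr93.D0
import Crest.Agent.X212.Gl50.Mt
import Crest.Agent.X212.Cyl58.Bt
import Crest.Agent.X212.Map77.S5
import Crest.Agent.X212.Shf6.Main
import Crest.Agent.X212.Ax1.GlI
import Crest.Agent.X212.Map44.Rad

/-!
# Row 212, SW-GL (helper64): the gluing theorem
-/

set_option autoImplicit false
set_option linter.unusedSectionVars false
noncomputable section

namespace Crest.Agent.X212.Gls64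
open An Cyf70 Prm93 Sw
open M (Mf)

variable {κ lam ν : Type} [Fintype κ] [Fintype lam] [Fintype ν] [DecidableEq ν]
  (d : Dt κ lam ν) [Fintype d.𝓔] (Sl : Type) [Fintype Sl] (X X₁ X₂ : Mf 4) (nc nr n₁ r₁ n₂ r₂ : ℕ)
  (T T₁ T₂ : Type) [NormedAddCommGroup T] [NormedSpace ℝ T] [FiniteDimensional ℝ T]
  [NormedAddCommGroup T₁] [NormedSpace ℝ T₁] [FiniteDimensional ℝ T₁]
  [NormedAddCommGroup T₂] [NormedSpace ℝ T₂] [FiniteDimensional ℝ T₂]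

/-- **SW-GL** -/
theorem gl : GlStmt d Sl X X₁ X₂ nc nr n₁ r₁ n₂ r₂ T T₁ T₂ :=
  have M : MapStmt d (Prod.fst : d.𝓔 × Sl → _) X nc nr T := by apply Map44.mapStmt
  have M₁ : MapStmt d (Prod.fst : d.𝓔 × Sl → _) X₁ n₁ r₁ T₁ := by apply Map44.mapStmt
  have M₂ : MapStmt d (Prod.fst : d.𝓔 × Sl → _) X₂ n₂ r₂ T₂ := by apply Map44.mapStmt
  have D : Map77.S.MdStmt d _ X nc nr T := by apply Map77.S.md; exact M
  have D₁ : Map77.S.MdStmt d _ X₁ n₁ r₁ T₁ := by apply Map77.S.md; exact M₁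
  have D₂ : Map77.S.MdStmt d _ X₂ n₂ r₂ T₂ := by apply Map77.S.md; exact M₂
  have R := Pb50.repStmt X nc nr d _ T M
  have R₁ := Pb50.repStmt X₁ n₁ r₁ d _ T₁ M₁
  have R₂ := Pb50.repStmt X₂ n₂ r₂ d _ T₂ M₂
  have hM : MtStmt d X X₁ X₂ nc nr n₁ r₁ n₂ r₂ T T₁ T₂ Sl := by apply Gl50.mtStmt
  gl_of M M₁ M₂ (Ax1.axStmt _ _ _ _ _ _ D (Grs81.grpP _ _ _ _ _ _) Cyl58.Bt.bootS)
    (Cyl58.Bt.bootStmt D) (Ax1.isoStmt _ _ _ _ _ _ D₁) (Ax1.isoStmt _ _ _ _ _ _ D₂)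
    (Ax1.liftStmt _ _ _ _ _ _ D₁) (Ax1.liftStmt _ _ _ _ _ _ D₂)
    (by apply Gr93.d0 <;> assumption) (by apply Gr93.d0 <;> assumption) hM
    (by apply Shf6.shift; exact hM)

end Crest.Agent.X212.Gls64
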